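import Vale.Agent.P251CZ.Glue
import Vale.Agent.P251CM.All
import Vale.Agent.P251CV.R
import Vale.Agent.P251CR.Tr
import Vale.Agent.P251CE.Dic
import Vale.Agent.P251CE.Lax
import Vale.Agent.P251CP.Lit

/-!
# P251C: the stable homotopy category of orthogonal spectra exists
-/

open CategoryTheory MonoidalCategory Limits OnePoint
open Functor.LaxMonoidal Functor.OplaxMonoidal

namespace Vale.Agent.P251CZ

open Vale.Agent.P251 Vale.Agent.P251.G Vale.Agent.P251.H Vale.Agent.P251.H.StabInput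
  Vale.Agent.P251C Vale.Agent.P251CM Vale.Agent.P251CR Vale.Agent.P251CE
open Vale.Agent.P251CA (CF)
open Vale.Agent.P251.St (Space toLC toHom Pn)

variable (R : Rfl CF OSp)

/-- the identity functor -/
def idE : OSp ⥤ RM R := 𝟭 OSp

instance : (idE R).IsEquivalence := inferInstanceAs (𝟭 OSp).IsEquivalence

variable (d : QD R.q)

/-- bimorphisms as morphisms out of the tensor product -/
noncomputable def tbR {X Y Z : OSp} :
    Bim X Y Z ≃ ((idE R).obj X ⊗ (idE R).obj Y ⟶ (idE R).obj Z) :=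
  d.cb.trans (tq (RM.adj R) (X := (idE R).obj X) (Y := (idE R).obj Y) (Z := (idE R).obj Z)).symm

theorem tq_tbR {X Y Z : OSp} (b : Bim X Y Z) : tq (RM.adj R) (tbR R d b) = d.cb b :=
  Equiv.apply_symm_apply _ _

/-- based maps as morphisms out of the suspension spectrum -/
noncomputable def tpR {K : Space} {X : OSp} :
    Pm K X 0 ≃ ((RM.r R).obj ((J CF).obj (toLC K)) ⟶ (idE R).obj X) :=
  d.cp.trans ((RM.adj R).homEquiv ((J CF).obj (toLC K)) ((idE R).obj X)).symm

theorem homEquiv_tpR {K : Space} {X : OSp} (u : Pm K X 0) :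
    (RM.adj R).homEquiv _ _ (tpR R d u) = d.cp u := Equiv.apply_symm_apply _ _

/-- The dictionary. -/
noncomputable def br : Br (idE R) where
  tb := tbR R d
  tp := tpR R d
  tb_nat b b' f g h := by
    rw [d.cb_nat, ← (tq (RM.adj R)).apply_eq_iff_eq, tq_comp, tq_pre, tq_tbR, tq_tbR]
    rfl
  tb_assoc a b c e h := by
    refine tq_assoc (RM.adj R) _ _ _ _ ?_
    rw [tq_tbR, tq_tbR, tq_tbR, tq_tbR]
    exact d.cb_assoc a b c e h
  tb_comm b c h := by
    apply (tq (RM.adj R)).injective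
    rw [tq_comm, tq_tbR, tq_tbR]
    exact d.cb_comm b c h
  tp_nat {K K' X X'} u u' a f := by
    rw [d.cp_nat]
    change _ ↔ (RM.r R).map ((J CF).map (toHom a)) ≫ tpR R d u' = tpR R d u ≫ (idE R).map f
    rw [← ((RM.adj R).homEquiv _ _).apply_eq_iff_eq, Adjunction.homEquiv_naturality_left,
      Adjunction.homEquiv_naturality_right, homEquiv_tpR, homEquiv_tpR]
    rfl
  tb_unit {X Y Z} b u g := by
    have h := tq_unit (RM.adj R) (A := (J CF).obj (toLC Pn)) (ε (J CF)) (tpR R d u) (tbR R d b)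
    rw [homEquiv_tpR, tq_tbR] at h
    have e : ε P251CA.CF.jC ≫ P251CA.CF.jC.map (LC.point (X := toLC Pn) ()) = ε P251CA.CF.jC :=
      (congrArg (fun t => ε P251CA.CF.jC ≫ P251CA.CF.jC.map t)
        (LC.hom_ext fun _ => rfl : LC.point (X := toLC Pn) () = 𝟙 (𝟙_ LC))).trans
        ((congrArg (fun t => ε P251CA.CF.jC ≫ t) (P251CA.CF.jC.map_id _)).trans
          (Category.comp_id _))
    have h2 := d.cb_pt b u () g
    rw [e] at h2
    refine h2.trans ?_
    rw [← Iso.inv_comp_eq, ← (RM.q R).map_injective.eq_iff, eq_comm]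
    refine Eq.congr ?_ rfl
    exact h.symm.trans (congrArg (fun t => (RM.q R).map ((ρ_ ((idE R).obj X)).inv ≫
        (idE R).obj X ◁ t ≫ tbR R d b)) (Category.assoc _ _ _).symm)
  pi {X Y} f := (P251CP.piIso_iff ⟨d.e X, d.e_pt X, d.plot X, fun _ _ => d.act X⟩
    ⟨d.e Y, d.e_pt Y, d.plot Y, fun _ _ => d.act Y⟩ f (R.q.map f) (d.map f)).trans
      (RM.piW_iff R I.FCP ((idE R).map f)).symm

/-- **The stable homotopy category of orthogonal spectra, with its suspension spectrum functor.** -/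
theorem exists_isSH : ∃ (T : St.SHCat) (S : St.Susp T), Nonempty (IsSH T S) := by
  obtain ⟨T, S, ⟨G⟩⟩ := nonempty_genSH (RM P251CV.R)
  exact ⟨T, S, ⟨isSH (br P251CV.R qd) G⟩⟩

end Vale.Agent.P251CZ
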