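import Vale.Agent.P251C.Defs
import Vale.Agent.P251CM.Model

/-!
# P251C: the bridge between literal orthogonal spectra and a `StabInput` category
-/

open CategoryTheory MonoidalCategory Limits OnePoint
open Functor.LaxMonoidal Functor.OplaxMonoidal

set_option linter.unusedSectionVars false

namespace Vale.Agent.P251CZ

open Vale.Agent.P251 Vale.Agent.P251.G Vale.Agent.P251.G.LC Vale.Agent.P251.H
  Vale.Agent.P251.H.StabInput Vale.Agent.P251C Vale.Agent.P251CM
open Vale.Agent.P251.St (Space toLC toHom Pn Hh Rr)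

variable {M : Type 1} [Category.{0} M] [MonoidalCategory M] [SymmetricCategory M]
    [MonoidalClosed M] [HasZeroMorphisms M] [HasColimitsOfSize.{0, 0} M] [StabInput M]

/-- The dictionary between orthogonal spectra and `M`. -/
structure Br (E : OSp ⥤ M) where
  /-- bimorphisms -/
  tb : ∀ {X Y Z : OSp}, Bim X Y Z ≃ (E.obj X ⊗ E.obj Y ⟶ E.obj Z)
  /-- based maps to the level zero -/
  tp : ∀ {K : Space} {X : OSp}, Pm K X 0 ≃ ((J M).obj (toLC K) ⟶ E.obj X)
  tb_nat : ∀ {X Y Z X' Y' Z' : OSp} (b : Bim X Y Z) (b' : Bim X' Y' Z') (f : X ⟶ X') (g : Y ⟶ Y')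
    (h : Z ⟶ Z'), (∀ m n (x : X.sp m) (y : Y.sp n),
      h.app _ (b.ev x y) = b'.ev (f.app m x) (g.app n y)) ↔
    tb b ≫ E.map h = (E.map f ⊗ₘ E.map g) ≫ tb b'
  tb_assoc : ∀ {X Y Z P Q W : OSp} (a : Bim X Y P) (b : Bim P Z W) (c : Bim Y Z Q) (d : Bim X Q W),
    (∀ l m n (e : Emb (l + m + n) (l + (m + n))), (∀ r s t,
      ap e (Fin.append (Fin.append r s) t) = Fin.append r (Fin.append s t)) →
      ∀ x y z, W.act (.some e) (b.ev (a.ev x y) z) = d.ev x (c.ev y z)) →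
    tb a ▷ E.obj Z ≫ tb b = (α_ _ _ _).hom ≫ E.obj X ◁ tb c ≫ tb d
  tb_comm : ∀ {X Y Z : OSp} (b : Bim X Y Z) (c : Bim Y X Z),
    (∀ m n (e : Emb (m + n) (n + m)), (∀ s t, ap e (Fin.append s t) = Fin.append t s) →
      ∀ x y, Z.act (.some e) (b.ev x y) = c.ev y x) → tb b = (β_ _ _).hom ≫ tb c
  tp_nat : ∀ {K K' : Space} {X X' : OSp} (u : Pm K X 0) (u' : Pm K' X' 0) (a : St.Map K K')
    (f : X ⟶ X'), (∀ k, u'.1 (a.toFun k) = f.app 0 (u.1 k)) ↔
    (J M).map (toHom a) ≫ tp u' = tp u ≫ E.map f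
  tb_unit : ∀ {X Y Z : OSp} (b : Bim X Y Z) (u : Pm Pn Y 0) (g : X ⟶ Z),
    (∀ n (x : X.sp n), g.app n x = b.ev x (u.1 (.some ()))) ↔
    E.obj X ◁ (ε (J M) ≫ tp u) ≫ tb b = (ρ_ _).hom ≫ E.map g
  pi : ∀ {X Y : OSp} (f : X ⟶ Y), piIso f ↔ WW M (E.map f)

/-! ### elementary facts on orthogonal spectra -/

theorem comp_app {X Y Z : OSp} (f : X ⟶ Y) (g : Y ⟶ Z) (n : ℕ) (x : X.sp n) :
    (f ≫ g).app n x = g.app n (f.app n x) := rfl

theorem id_app (X : OSp) (n : ℕ) (x : X.sp n) : (𝟙 X : X ⟶ X).app n x = x := rfl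

theorem osp_ext {X Y : OSp} {f g : X ⟶ Y} (h : ∀ n x, f.app n x = g.app n x) : f = g :=
  OSp.Hom.ext (funext fun n => ContinuousMap.ext (h n))

/-- the constant morphism -/
def cst (X Y : OSp) : X ⟶ Y :=
  ⟨fun n => ContinuousMap.const _ (Y.pt n), fun _ => rfl, fun m n _ _ => (Y.act_pt m n _).symm⟩

/-- a point of a space as a map from the point -/
abbrev ptMap {K : Space} (k : K.carrier) : St.Map Pn K := St.ofHom (point (X := toLC K) k)

/-- precomposition of a based map with a map of spaces -/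
def Pm.pre {K K' : Space} {X : OSp} (a : St.Map K K') (u : Pm K' X 0) : Pm K X 0 :=
  ⟨u.1.comp ⟨a.toFun, a.cont⟩, (congrArg u.1 a.map_infty).trans u.2⟩

theorem pm_ext {K : Space} {X : OSp} {u v : Pm K X 0} (h : ∀ k : K.carrier, u.1 (.some k) = v.1 (.some k)) :
    u = v := by
  refine Subtype.ext (ContinuousMap.ext fun k => ?_)
  induction k using OnePoint.rec with
  | infty => exact u.2.trans v.2.symm
  | coe k => exact h k

variable {E : OSp ⥤ M} [E.IsEquivalence]

theorem map_eq_zero {X Y : OSp} {h : X ⟶ Y} (hh : ∀ n x, h.app n x = Y.pt n) : E.map h = 0 := by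
  have e : h = cst X X ≫ E.preimage (0 : E.obj X ⟶ E.obj Y) :=
    osp_ext fun n x => (hh n x).trans ((E.preimage (0 : E.obj X ⟶ E.obj Y)).pt n).symm
  rw [e, E.map_comp, E.map_preimage, comp_zero]

theorem app_of_map_eq_zero {X Y : OSp} {h : X ⟶ Y} (hh : E.map h = 0) (n : ℕ) (x : X.sp n) :
    h.app n x = Y.pt n := by
  have e : h = cst X Y := E.map_injective (hh.trans (map_eq_zero (h := cst X Y) fun _ _ => rfl).symm)
  rw [e]
  rfl

/-- a morphism is an isomorphism iff it induces bijections on maps to the objects `E W` -/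
theorem isIso_iff_E {A : M} {Z : OSp} (t : A ⟶ E.obj Z) :
    IsIso t ↔ ∀ (W : OSp) (c : A ⟶ E.obj W), ∃! h : Z ⟶ W, t ≫ E.map h = c := by
  constructor
  · intro _ W c
    refine ⟨E.preimage (inv t ≫ c), by simp, fun h hh => E.map_injective ?_⟩
    rw [E.map_preimage, ← hh, IsIso.inv_hom_id_assoc]
  · intro h
    let e := E.objObjPreimageIso A
    obtain ⟨s, hs, -⟩ := h _ e.inv
    refine ⟨E.map s ≫ e.hom, by rw [reassoc_of% hs, e.inv_hom_id], ?_⟩
    obtain ⟨s', -, hu⟩ := h Z t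
    have h1 := hu (E.preimage ((E.map s ≫ e.hom) ≫ t)) (by
      change t ≫ E.map _ = t
      rw [E.map_preimage, Category.assoc, reassoc_of% hs, e.inv_hom_id_assoc])
    have h2 := hu (𝟙 Z) (by simp)
    rw [← E.map_preimage ((E.map s ≫ e.hom) ≫ t), h1, ← h2, E.map_id]

namespace Br

variable (B : Br E)

theorem tb_post {X Y Z W : OSp} (b : Bim X Y Z) (c : Bim X Y W) (h : Z ⟶ W) :
    (∀ m n (x : X.sp m) (y : Y.sp n), h.app _ (b.ev x y) = c.ev x y) ↔
      B.tb b ≫ E.map h = B.tb c := by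
  have := B.tb_nat b c (𝟙 X) (𝟙 Y) h
  rwa [E.map_id, E.map_id, id_tensorHom_id, Category.id_comp] at this

theorem isUniv_iff {X Y Z : OSp} (b : Bim X Y Z) : IsUniv b ↔ IsIso (B.tb b) := by
  rw [isIso_iff_E]
  constructor
  · intro h W c
    obtain ⟨c, rfl⟩ := B.tb.surjective c
    exact (existsUnique_congr fun g => B.tb_post b c g).1 (h W c)
  · intro h W c
    exact (existsUnique_congr fun g => B.tb_post b c g).2 (h W _)

theorem tp_post {K : Space} {X W : OSp} (u : Pm K X 0) (v : Pm K W 0) (h : X ⟶ W) :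
    (∀ k, h.app 0 (u.1 k) = v.1 k) ↔ B.tp u ≫ E.map h = B.tp v := by
  have := B.tp_nat u v (St.ofHom (𝟙 (toLC K))) h
  rw [St.toHom_ofHom, CategoryTheory.Functor.map_id, Category.id_comp] at this
  exact (forall_congr' fun k => eq_comm).trans (this.trans eq_comm)

theorem isFree_iff {K : Space} {X : OSp} (u : Pm K X 0) : IsFree u ↔ IsIso (B.tp u) := by
  rw [isIso_iff_E]
  constructor
  · intro h W c
    obtain ⟨c, rfl⟩ := B.tp.surjective c
    exact (existsUnique_congr fun g => B.tp_post u c g).1 (h W c)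
  · intro h W c
    exact (existsUnique_congr fun g => B.tp_post u c g).2 (h W _)

theorem tp_pre {K K' : Space} {X : OSp} (a : St.Map K K') (u : Pm K' X 0) :
    B.tp (Pm.pre a u) = (J M).map (toHom a) ≫ B.tp u := by
  have := (B.tp_nat (Pm.pre a u) u a (𝟙 X)).1 fun _ => rfl
  rw [E.map_id, Category.comp_id] at this
  exact this.symm

include B in
theorem ex_univ (X Y : OSp) : ∃ (Z : OSp) (b : Bim X Y Z), IsUniv b := by
  refine ⟨_, B.tb.symm (E.objObjPreimageIso (E.obj X ⊗ E.obj Y)).inv, ?_⟩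
  rw [B.isUniv_iff, Equiv.apply_symm_apply]
  infer_instance

include B in
theorem ex_free (K : Space) : ∃ (X : OSp) (u : Pm K X 0), IsFree u := by
  refine ⟨_, B.tp.symm (E.objObjPreimageIso ((J M).obj (toLC K))).inv, ?_⟩
  rw [B.isFree_iff, Equiv.apply_symm_apply]
  infer_instance

/-- the slice of a bimorphism at a point -/
theorem slice {K : Space} {X Y Z : OSp} (b : Bim X Y Z) (u : Pm K Y 0) (k : K.carrier)
    (g : X ⟶ Z) : (∀ n (x : X.sp n), g.app n x = b.ev x (u.1 (.some k))) ↔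
      E.obj X ◁ (ε (J M) ≫ (J M).map (point (X := toLC K) k) ≫ B.tp u) ≫ B.tb b =
        (ρ_ _).hom ≫ E.map g := by
  have := B.tb_unit b (Pm.pre (ptMap k) u) g
  rwa [B.tp_pre] at this

include B in
/-- maps out of `J K` are determined by their values on points -/
theorem J_ext {K : Space} {A : M} {f g : (J M).obj (toLC K) ⟶ A}
    (h : ∀ k : K.carrier, (J M).map (point (X := toLC K) k) ≫ f =
      (J M).map (point (X := toLC K) k) ≫ g) : f = g := by
  let e := E.objObjPreimageIso A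
  rw [← cancel_mono e.inv]
  obtain ⟨u, hu⟩ := B.tp.surjective (f ≫ e.inv)
  obtain ⟨v, hv⟩ := B.tp.surjective (g ≫ e.inv)
  rw [← hu, ← hv]
  refine congrArg B.tp (pm_ext fun k => ?_)
  have : Pm.pre (ptMap k) u = Pm.pre (ptMap k) v := B.tp.injective (by
    rw [B.tp_pre, B.tp_pre, hu, hv]
    exact (Category.assoc _ _ _).symm.trans
      ((congrArg (· ≫ e.inv) (h k)).trans (Category.assoc _ _ _)))
  exact congrArg (fun w : Pm Pn _ 0 => w.1 (.some ())) this

include B in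
/-- maps out of `X ⊗ J K` are determined by their values on points -/
theorem tJ_ext {K : Space} {X A : M} {f g : X ⊗ (J M).obj (toLC K) ⟶ A}
    (h : ∀ k : K.carrier, X ◁ (ε (J M) ≫ (J M).map (point (X := toLC K) k)) ≫ f =
      X ◁ (ε (J M) ≫ (J M).map (point (X := toLC K) k)) ≫ g) : f = g := by
  apply MonoidalClosed.curry_injective
  refine B.J_ext fun k => ?_
  rw [← cancel_epi (ε (J M)), ← Category.assoc, ← Category.assoc,
    ← MonoidalClosed.curry_natural_left, ← MonoidalClosed.curry_natural_left, h k]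

theorem tp_mul {K K' : Space} {X Y Z : OSp} (u : Pm K X 0) (v : Pm K' Y 0)
    (w : Pm (K.prod K') Z 0) (b : Bim X Y Z)
    (h : ∀ k k', w.1 (St.smash k k') = b.ev (u.1 k) (v.1 k')) :
    μ (J M) (toLC K) (toLC K') ≫ B.tp w = (B.tp u ⊗ₘ B.tp v) ≫ B.tb b := by
  refine B.tJ_ext fun k' => ?_
  let g : X ⟶ Z := E.preimage ((ρ_ _).inv ≫
    E.obj X ◁ (ε (J M) ≫ (J M).map (point (X := toLC K') k') ≫ B.tp v) ≫ B.tb b)
  have hg : E.obj X ◁ (ε (J M) ≫ (J M).map (point (X := toLC K') k') ≫ B.tp v) ≫ B.tb b =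
      (ρ_ _).hom ≫ E.map g := by rw [E.map_preimage, Iso.hom_inv_id_assoc]
  have hg' := (B.slice b v k' g).2 hg
  let a : toLC K ⟶ toLC (K.prod K') := (ρ_ (toLC K)).inv ≫ toLC K ◁ point (X := toLC K') k'
  have ha : (J M).map a ≫ B.tp w = B.tp u ≫ E.map g :=
    (B.tp_nat u w (St.ofHom a) g).1 fun k => by
      rw [hg', ← h]
      refine congrArg w.1 ?_
      induction k using OnePoint.rec with
      | infty => exact app_infty a
      | coe k => rfl
  have e1 : (J M).obj (toLC K) ◁ (ε (J M) ≫ (J M).map (point (X := toLC K') k')) ≫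
      μ (J M) (toLC K) (toLC K') = (ρ_ _).hom ≫ (J M).map a := by
    rw [MonoidalCategory.whiskerLeft_comp, Category.assoc, μ_natural_right, Functor.map_comp,
      Functor.LaxMonoidal.right_unitality (J M) (toLC K)]
    simp only [Category.assoc, Iso.map_hom_inv_id_assoc]
  rw [reassoc_of% e1, ha, tensorHom_def', Category.assoc,
    ← MonoidalCategory.whiskerLeft_comp_assoc, whisker_exchange_assoc, Category.assoc, hg,
    rightUnitor_naturality_assoc]

theorem W_whiskerRight_iff {Y A A' : M} (f : A ⟶ A') : WW M (f ▷ Y) ↔ WW M (Y ◁ f) :=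
  (WW M).arrow_mk_iso_iff (Arrow.isoMk (β_ A Y) (β_ A' Y)
    (BraidedCategory.braiding_naturality_left f Y).symm)

include B in
theorem isFlat_iff (Y : OSp) : IsFlat Y ↔ Flat (WW M) (E.obj Y) := by
  constructor
  · intro hY A A' f hf
    let e := E.objObjPreimageIso A
    let e' := E.objObjPreimageIso A'
    let f' := E.preimage (e.hom ≫ f ≫ e'.inv)
    have h1 : E.map f' = e.hom ≫ f ≫ e'.inv := E.map_preimage _
    have hf' : piIso f' := (B.pi f').2 (((WW M).arrow_mk_iso_iff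
      (Arrow.isoMk e e' (by simp [h1]) : Arrow.mk (E.map f') ≅ Arrow.mk f)).2 hf)
    obtain ⟨Z, b, hb⟩ := B.ex_univ (E.objPreimage A) Y
    obtain ⟨Z', b', hb'⟩ := B.ex_univ (E.objPreimage A') Y
    have := (B.isUniv_iff b).1 hb
    have := (B.isUniv_iff b').1 hb'
    let h := E.preimage (inv (B.tb b) ≫ E.map f' ▷ E.obj Y ≫ B.tb b')
    have h2 : B.tb b ≫ E.map h = E.map f' ▷ E.obj Y ≫ B.tb b' := by
      rw [E.map_preimage, IsIso.hom_inv_id_assoc]
    have h3 := (B.pi h).1 (hY b b' f' h hb hb' ((B.tb_nat b b' f' (𝟙 Y) h).2 (by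
      rw [h2, E.map_id, tensorHom_id])) hf')
    refine (W_whiskerRight_iff f).1 (((WW M).arrow_mk_iso_iff (Arrow.isoMk
      (whiskerRightIso e.symm (E.obj Y) ≪≫ asIso (B.tb b))
      (whiskerRightIso e'.symm (E.obj Y) ≪≫ asIso (B.tb b')) ?_ :
        Arrow.mk (f ▷ E.obj Y) ≅ Arrow.mk (E.map h))).2 h3)
    change (e.inv ▷ E.obj Y ≫ B.tb b) ≫ E.map h = f ▷ E.obj Y ≫ e'.inv ▷ E.obj Y ≫ B.tb b'
    rw [Category.assoc, h2, h1, ← comp_whiskerRight_assoc, ← comp_whiskerRight_assoc,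
      e.inv_hom_id_assoc]
  · intro hY X X' Z Z' b b' f h hb hb' hh hf
    have := (B.isUniv_iff b).1 hb
    have := (B.isUniv_iff b').1 hb'
    have h2 := (B.tb_nat b b' f (𝟙 Y) h).1 hh
    rw [E.map_id, tensorHom_id] at h2
    exact (B.pi h).2 (((WW M).arrow_mk_iso_iff (Arrow.isoMk (asIso (B.tb b)) (asIso (B.tb b'))
      h2 : Arrow.mk (E.map f ▷ E.obj Y) ≅ Arrow.mk (E.map h))).1
      ((W_whiskerRight_iff _).2 (hY _ ((B.pi f).1 hf))))

include B in
theorem ex_flat (h : ∀ X : M, ∃ (Y : M) (f : Y ⟶ X), Flat (WW M) Y ∧ WW M f) (X : OSp) :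
    ∃ (Y : OSp) (f : Y ⟶ X), IsFlat Y ∧ piIso f := by
  obtain ⟨Y, f, hY, hf⟩ := h (E.obj X)
  let e := E.objObjPreimageIso Y
  refine ⟨E.objPreimage Y, E.preimage (e.hom ≫ f), (B.isFlat_iff _).2 fun A A' g hg => ?_,
    (B.pi _).2 ?_⟩
  · exact ((WW M).arrow_mk_iso_iff (Arrow.isoMk (whiskerRightIso e A) (whiskerRightIso e A')
      (whisker_exchange e.hom g).symm : Arrow.mk (_ ◁ g) ≅ Arrow.mk (Y ◁ g))).2 (hY g hg)
  · rw [E.map_preimage]
    exact MorphismProperty.RespectsIso.precomp _ _ _ hf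

/-! ### mapping cones -/

theorem glue_iff {X Y H W : OSp} (f : X ⟶ Y) (j : Y ⟶ W) (u : Pm Hh H 0) (k : Bim X H W) :
    (∀ n (x : X.sp n), k.ev x (u.1 (.some 0)) = j.app n (f.app n x)) ↔
      coneBase (E.obj X) ≫ E.obj X ◁ B.tp u ≫ B.tb k = E.map f ≫ E.map j := by
  refine (forall₂_congr fun n x => eq_comm).trans ((B.slice k u (0 : NNReal) (f ≫ j)).trans ?_)
  rw [coneBase_def, Category.assoc, Iso.inv_comp_eq, E.map_comp,
    ← MonoidalCategory.whiskerLeft_comp_assoc, Category.assoc]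
  rfl

theorem interior_iff {X C D H R : OSp} (d : C ⟶ D) (u : Pm Hh H 0) (r : Pm Rr R 0)
    (k : Bim X H C) (s : Bim X R D) (t : NNReal) (t' : ℝ) :
    (∀ n (x : X.sp n), d.app n (k.ev x (u.1 (.some t))) = s.ev x (r.1 (.some t'))) ↔
      E.obj X ◁ (ε (J M) ≫ (J M).map (point (X := HH) t)) ≫ E.obj X ◁ B.tp u ≫ B.tb k ≫ E.map d =
      E.obj X ◁ (ε (J M) ≫ (J M).map (point (X := RR) t')) ≫ E.obj X ◁ B.tp r ≫ B.tb s := by
  let g : X ⟶ C := E.preimage ((ρ_ _).inv ≫
    E.obj X ◁ (ε (J M) ≫ (J M).map (point (X := toLC Hh) t) ≫ B.tp u) ≫ B.tb k)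
  have hg : E.obj X ◁ (ε (J M) ≫ (J M).map (point (X := toLC Hh) t) ≫ B.tp u) ≫ B.tb k =
      (ρ_ _).hom ≫ E.map g := by rw [E.map_preimage, Iso.hom_inv_id_assoc]
  have hg' := (B.slice k u t g).2 hg
  have h := B.slice s r t' (g ≫ d)
  rw [E.map_comp, ← reassoc_of% hg] at h
  simp only [comp_app, hg'] at h
  refine h.trans ?_
  simp only [MonoidalCategory.whiskerLeft_comp, Category.assoc]
  exact eq_comm

theorem point_collHH (t : NNReal) (ht : 0 < t) :
    point (X := HH) t ≫ collHH = point (X := RR) (Real.log t) :=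
  hom_ext fun _ => LP.app_collHH_of_pos t ht.ne'

theorem isCone {X Y C D H R : OSp} {f : X ⟶ Y} {j : Y ⟶ C} {d : C ⟶ D} {u : Pm Hh H 0}
    {r : Pm Rr R 0} {k : Bim X H C} {s : Bim X R D} (h : MCone f j d u r k s)
    {d' : E.obj C ⟶ E.obj X ⊗ S M} (hd : d' ≫ E.obj X ◁ B.tp r ≫ B.tb s = E.map d) :
    IsCone (E.map f) (E.obj X ◁ B.tp u ≫ B.tb k) (E.map j) d' := by
  have := (B.isFree_iff u).1 h.free.1
  have := (B.isFree_iff r).1 h.free.2.1
  have := (B.isUniv_iff s).1 h.free.2.2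
  have w := (B.glue_iff f j u k).1 h.glue
  have hj : E.map j ≫ E.map d = 0 := by
    rw [← E.map_comp]
    exact map_eq_zero h.collapse
  refine ⟨?_, ?_, ?_⟩
  · have hp := IsPushout.of_hasPushout (coneBase (E.obj X)) (E.map f)
    let t := hp.desc _ _ w
    have : IsIso t := (isIso_iff_E t).2 fun W c => by
      obtain ⟨k', hk'⟩ := B.tb.surjective (E.obj X ◁ inv (B.tp u) ≫ pushout.inl _ _ ≫ c)
      let j' := E.preimage (pushout.inr (coneBase (E.obj X)) (E.map f) ≫ c)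
      refine (existsUnique_congr fun g => ?_).1 (h.pushout W j' k' ((B.glue_iff f j' u k').2 (by
        rw [hk', E.map_preimage, ← MonoidalCategory.whiskerLeft_comp_assoc (E.obj X) (B.tp u),
          IsIso.hom_inv_id, whiskerLeft_id, Category.id_comp, hp.w_assoc])))
      rw [B.tb_post, hk']
      constructor
      · rintro ⟨h1, h2⟩
        refine hp.hom_ext ?_ ?_
        · rw [hp.inl_desc_assoc, Category.assoc, h2, ← MonoidalCategory.whiskerLeft_comp_assoc,
            IsIso.hom_inv_id, whiskerLeft_id, Category.id_comp]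
        · rw [hp.inr_desc_assoc, ← E.map_comp, h1, E.map_preimage]
      · rintro rfl
        refine ⟨E.map_injective ?_, ?_⟩
        · rw [E.map_preimage, hp.inr_desc_assoc, E.map_comp]
        · rw [hp.inl_desc_assoc, Category.assoc, ← MonoidalCategory.whiskerLeft_comp_assoc,
            IsIso.inv_hom_id, whiskerLeft_id, Category.id_comp]
    exact hp.of_iso (Iso.refl _) (Iso.refl _) (Iso.refl _) (asIso t) (by simp) (by simp)
      ((hp.inl_desc _ _ w).trans (Category.id_comp _).symm)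
      ((hp.inr_desc _ _ w).trans (Category.id_comp _).symm)
  · rw [← cancel_mono (E.obj X ◁ B.tp r ≫ B.tb s), Category.assoc, Category.assoc, hd]
    refine B.tJ_ext (K := Hh) fun t => ?_
    rcases eq_zero_or_pos t with rfl | ht
    · rw [← cancel_epi (ρ_ (E.obj X)).inv]
      have h1 : coneBase (E.obj X) ≫ E.obj X ◁ B.tp u ≫ B.tb k ≫ E.map d =
          coneBase (E.obj X) ≫ E.obj X ◁ collM ≫ E.obj X ◁ B.tp r ≫ B.tb s := by
        rw [reassoc_of% w, hj, comp_zero, coneBase_collM_assoc, zero_comp]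
      rw [coneBase_def, Category.assoc, Category.assoc] at h1
      exact h1
    · refine ((B.interior_iff d u r k s t _).1 fun n x => h.interior n x t ht).trans ?_
      rw [← point_collHH t ht, Functor.map_comp]
      simp only [MonoidalCategory.whiskerLeft_comp, Category.assoc]
  · rw [← cancel_mono (E.obj X ◁ B.tp r ≫ B.tb s), Category.assoc, hd, hj, zero_comp]

include B in
theorem ex_cone {X Y : OSp} (f : X ⟶ Y) : ∃ (C D H R : OSp) (j : Y ⟶ C) (d : C ⟶ D)
    (u : Pm Hh H 0) (r : Pm Rr R 0) (k : Bim X H C) (s : Bim X R D), MCone f j d u r k s := by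
  obtain ⟨H, u, hu⟩ := B.ex_free Hh
  obtain ⟨R, r, hr⟩ := B.ex_free Rr
  obtain ⟨D, s, hs⟩ := B.ex_univ X R
  have := (B.isFree_iff u).1 hu
  obtain ⟨C, k, i, q, h⟩ := IsCone.exists_isCone (E.map f)
  let e := E.objObjPreimageIso C
  obtain ⟨k', hk'⟩ := B.tb.surjective (E.obj X ◁ inv (B.tp u) ≫ k ≫ e.inv)
  have hk : E.obj X ◁ B.tp u ≫ B.tb k' = k ≫ e.inv := by
    rw [hk', ← MonoidalCategory.whiskerLeft_comp_assoc, IsIso.hom_inv_id, whiskerLeft_id,
      Category.id_comp]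
  let j := E.preimage (i ≫ e.inv)
  have hj : E.map j = i ≫ e.inv := E.map_preimage _
  let d := E.preimage (e.hom ≫ q ≫ E.obj X ◁ B.tp r ≫ B.tb s)
  have hd : E.map d = e.hom ≫ q ≫ E.obj X ◁ B.tp r ≫ B.tb s := E.map_preimage _
  refine ⟨_, D, H, R, j, d, u, r, k', s, ⟨hu, hr, hs⟩, (B.glue_iff f j u k').2 ?_,
    fun W j' k'' w => ?_, fun n y => ?_, fun n x t ht => ?_⟩
  · rw [hk, hj, h.po.w_assoc]
  · have w' := (B.glue_iff f j' u k'').1 w
    refine ⟨E.preimage (e.hom ≫ h.po.desc _ _ w'), ⟨E.map_injective ?_, (B.tb_post _ _ _).2 ?_⟩,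
      fun g ⟨h1, h2⟩ => E.map_injective ?_⟩
    · rw [E.map_comp, hj, E.map_preimage, Category.assoc, e.inv_hom_id_assoc, h.po.inr_desc]
    · rw [← cancel_epi (E.obj X ◁ B.tp u), reassoc_of% hk, E.map_preimage, e.inv_hom_id_assoc,
        h.po.inl_desc]
    · rw [E.map_preimage, ← Iso.inv_comp_eq]
      refine h.po.hom_ext ?_ ?_
      · rw [h.po.inl_desc, ← reassoc_of% hk, (B.tb_post _ _ _).1 h2]
      · rw [h.po.inr_desc, ← reassoc_of% hj, ← E.map_comp, h1]
  · refine app_of_map_eq_zero (E := E) (h := j ≫ d) ?_ n y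
    rw [E.map_comp, hj, hd, Category.assoc, e.inv_hom_id_assoc, reassoc_of% h.iq, zero_comp]
  · refine (B.interior_iff d u r k' s t _).2 ?_ n x
    rw [reassoc_of% hk, hd, e.inv_hom_id_assoc, reassoc_of% h.kq, ← point_collHH t ht,
      Functor.map_comp]
    simp only [MonoidalCategory.whiskerLeft_comp, Category.assoc]

end Br

end Vale.Agent.P251CZ
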