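import Vale.Agent.P251CZ.Br
import Vale.Agent.P251CM.GenDef

/-!
# P251C: the literal comparison statement from the generic one and the dictionary
-/

open CategoryTheory MonoidalCategory Limits OnePoint
open Functor.LaxMonoidal Functor.OplaxMonoidal

namespace Vale.Agent.P251CZ

open Vale.Agent.P251 Vale.Agent.P251.G Vale.Agent.P251.G.LC Vale.Agent.P251.H
  Vale.Agent.P251.H.StabInput Vale.Agent.P251C Vale.Agent.P251CM
open Vale.Agent.P251.St (Space toLC toHom Pn Hh Rr)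

variable {M : Type 1} [Category.{0} M] [MonoidalCategory M] [SymmetricCategory M]
    [MonoidalClosed M] [HasZeroMorphisms M] [HasColimitsOfSize.{0, 0} M] [StabInput M]
    {E : OSp ⥤ M} [E.IsEquivalence] (B : Br E) {T : St.SHCat} {S : St.Susp T} (G : GenSH M T S)

include B in
theorem isLocalization : (E ⋙ G.L).IsLocalization piIso := by
  have := G.loc
  refine Functor.IsLocalization.of_equivalence_source G.L (WW M) (E ⋙ G.L) piIso
    E.asEquivalence.symm (fun X Y f hf => ?_) (fun X Y f hf => ?_) ?_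
  · exact MorphismProperty.le_isoClosure _ _ ((B.pi _).2 (((WW M).arrow_mk_iso_iff
      (Arrow.isoMk (E.asEquivalence.counitIso.app X) (E.asEquivalence.counitIso.app Y)
        (E.asEquivalence.counitIso.hom.naturality f).symm :
          Arrow.mk (E.map (E.asEquivalence.inverse.map f)) ≅ Arrow.mk f)).2 hf))
  · exact Localization.inverts G.L (WW M) _ ((B.pi f).1 hf)
  · exact (Functor.associator _ _ _).symm ≪≫
      Functor.isoWhiskerRight E.asEquivalence.counitIso G.L ≪≫ G.L.leftUnitor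

theorem mu_left {X X' : M} (f : X ⟶ X') (Y : M) :
    G.L.map f ▷ G.L.obj Y ≫ G.mu X' Y = G.mu X Y ≫ G.L.map (f ▷ Y) := by
  have := G.mu_nat f (𝟙 Y)
  rw [G.L.map_id, tensorHom_id, tensorHom_id] at this
  exact this.symm

theorem mu_right (X : M) {Y Y' : M} (g : Y ⟶ Y') :
    G.L.obj X ◁ G.L.map g ≫ G.mu X Y' = G.mu X Y ≫ G.L.map (X ◁ g) := by
  have := G.mu_nat (𝟙 X) g
  rw [G.L.map_id, id_tensorHom, id_tensorHom] at this
  exact this.symm

/-- The literal comparison statement. -/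
noncomputable def isSH : IsSH T S where
  L := E ⋙ G.L
  loc := isLocalization B G
  mu b := G.mu _ _ ≫ G.L.map (B.tb b)
  io u := G.io _ ≫ G.L.map (B.tp u)
  ex_flat := B.ex_flat G.ex_flat
  ex_univ := B.ex_univ
  ex_free := B.ex_free
  ex_cone := B.ex_cone
  mu_iso {X Y Z} b hb hY := by
    have := (B.isUniv_iff b).1 hb
    have := G.mu_iso (E.obj X) _ ((B.isFlat_iff _).1 hY)
    infer_instance
  mu_nat b b' f g h hh := by
    change (G.mu _ _ ≫ G.L.map (B.tb b)) ≫ G.L.map (E.map h) =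
      (G.L.map (E.map f) ⊗ₘ G.L.map (E.map g)) ≫ G.mu _ _ ≫ G.L.map (B.tb b')
    rw [Category.assoc, ← G.L.map_comp, (B.tb_nat b b' f g h).1 hh, G.L.map_comp,
      reassoc_of% G.mu_nat]
  mu_assoc {X Y Z P Q W} a b c d h := by
    change (G.mu _ _ ≫ G.L.map (B.tb a)) ▷ G.L.obj (E.obj Z) ≫ G.mu _ _ ≫ G.L.map (B.tb b) =
      (α_ _ _ _).hom ≫ G.L.obj (E.obj X) ◁ (G.mu _ _ ≫ G.L.map (B.tb c)) ≫
        G.mu _ _ ≫ G.L.map (B.tb d)
    rw [comp_whiskerRight, MonoidalCategory.whiskerLeft_comp, Category.assoc, Category.assoc,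
      reassoc_of% mu_left G, reassoc_of% mu_right G, ← G.L.map_comp, ← G.L.map_comp,
      B.tb_assoc a b c d h, G.L.map_comp, reassoc_of% G.mu_assoc]
  mu_comm b c h := by
    change G.mu _ _ ≫ G.L.map (B.tb b) = (β_ _ _).hom ≫ G.mu _ _ ≫ G.L.map (B.tb c)
    rw [B.tb_comm b c h, G.L.map_comp, reassoc_of% G.mu_comm]
  mu_unit {X Y Z} b u g h := by
    change G.L.obj (E.obj X) ◁ (S.unit ≫ G.io _ ≫ G.L.map (B.tp u)) ≫ G.mu _ _ ≫
      G.L.map (B.tb b) = (ρ_ _).hom ≫ G.L.map (E.map g)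
    have h1 := (B.tb_unit b u g).1 h
    rw [← Category.assoc S.unit, MonoidalCategory.whiskerLeft_comp, Category.assoc,
      reassoc_of% mu_right G, reassoc_of% G.mu_unit, ← G.L.map_comp, ← G.L.map_comp,
      Category.assoc, ← MonoidalCategory.whiskerLeft_comp_assoc, h1, Iso.inv_hom_id_assoc]
  io_iso {K X} u hK hu := by
    have := (B.isFree_iff u).1 hu
    have := G.io_iso hK
    refine ⟨(B.isFlat_iff X).2 fun A A' g hg => ?_, inferInstance⟩
    exact ((WW M).arrow_mk_iso_iff (Arrow.isoMk (whiskerRightIso (asIso (B.tp u)) A)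
      (whiskerRightIso (asIso (B.tp u)) A') (whisker_exchange (B.tp u) g).symm :
        Arrow.mk (_ ◁ g) ≅ Arrow.mk (E.obj X ◁ g))).1 (G.flat_J hK g hg)
  io_nat u u' a f hK hK' h := by
    change S.map a ≫ G.io _ ≫ G.L.map (B.tp u') = (G.io _ ≫ G.L.map (B.tp u)) ≫ G.L.map (E.map f)
    rw [reassoc_of% G.io_nat a hK hK', ← G.L.map_comp, (B.tp_nat u u' a f).1 h, G.L.map_comp,
      Category.assoc]
  io_mul u v w b hK hK' h := by
    change S.mul _ _ ≫ G.io _ ≫ G.L.map (B.tp w) =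
      ((G.io _ ≫ G.L.map (B.tp u)) ⊗ₘ (G.io _ ≫ G.L.map (B.tp v))) ≫ G.mu _ _ ≫ G.L.map (B.tb b)
    rw [reassoc_of% G.io_mul hK hK', ← G.L.map_comp, B.tp_mul u v w b h, G.L.map_comp,
      reassoc_of% G.mu_nat, tensorHom_comp_tensorHom_assoc]
  cone {X Y C D H R} f j d u r k s δ h hδ := by
    have := (B.isFree_iff r).1 h.free.2.1
    have := (B.isUniv_iff s).1 h.free.2.2
    have hd : (E.map d ≫ inv (E.obj X ◁ B.tp r ≫ B.tb s)) ≫ E.obj X ◁ B.tp r ≫ B.tb s =
        E.map d := by rw [Category.assoc, IsIso.inv_hom_id, Category.comp_id]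
    refine G.cone _ _ _ _ δ (B.isCone h hd) ?_
    change δ ≫ G.L.obj (E.obj X) ◁ (G.io Rr ≫ G.L.map (B.tp r)) ≫ G.mu _ _ ≫ G.L.map (B.tb s) =
      G.L.map (E.map d) at hδ
    rw [← cancel_mono (G.L.map (E.obj X ◁ B.tp r ≫ B.tb s)), ← G.L.map_comp, hd, ← hδ,
      G.L.map_comp, MonoidalCategory.whiskerLeft_comp, Category.assoc, Category.assoc,
      Category.assoc, reassoc_of% mu_right G]

end Vale.Agent.P251CZ
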