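import Vale.Agent.P251CM.All
import Mathlib.CategoryTheory.Localization.Equivalence

/-!
# P251C: the suspension spectrum axioms follow from the comparison data
-/

open CategoryTheory MonoidalCategory Limits Pretriangulated
open Functor.LaxMonoidal Functor.OplaxMonoidal

set_option linter.unusedSectionVars false

namespace Vale.Agent.P251CZ

open Vale.Agent.P251 Vale.Agent.P251.G Vale.Agent.P251.G.LC Vale.Agent.P251.H
  Vale.Agent.P251.H.StabInput Vale.Agent.P251CM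
open Vale.Agent.P251.St (Space toLC toHom ofHom Pn Hh Rr Rn Em fcPn fcRr fc_prod)
open Vale.Agent.P251.St.SHCat (tenSus)

/-- `GenSH` for the bare data of a suspension spectrum functor. -/
structure GenD (M : Type 1) [Category.{0} M] [MonoidalCategory M] [SymmetricCategory M]
    [MonoidalClosed M] [HasZeroMorphisms M] [HasColimitsOfSize.{0, 0} M] [StabInput M]
    (T : St.SHCat) (S : St.SuspData T) where
  /-- the localization functor -/
  L : M ⥤ T.C
  loc : L.IsLocalization (WW M)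
  /-- the lax symmetric monoidal structure -/
  mu : ∀ X Y : M, L.obj X ⊗ L.obj Y ⟶ L.obj (X ⊗ Y)
  /-- the comparison of suspension spectra -/
  io : ∀ K : St.Space, S.obj K ⟶ L.obj ((J M).obj (toLC K))
  mu_iso : ∀ X Y : M, Flat (WW M) Y → IsIso (mu X Y)
  mu_nat : ∀ {X Y X' Y' : M} (f : X ⟶ X') (g : Y ⟶ Y'),
    mu X Y ≫ L.map (f ⊗ₘ g) = (L.map f ⊗ₘ L.map g) ≫ mu X' Y'
  mu_assoc : ∀ X Y Z : M, mu X Y ▷ L.obj Z ≫ mu (X ⊗ Y) Z ≫ L.map (α_ X Y Z).hom =
    (α_ _ _ _).hom ≫ L.obj X ◁ mu Y Z ≫ mu X (Y ⊗ Z)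
  mu_comm : ∀ X Y : M, mu X Y ≫ L.map (β_ X Y).hom = (β_ _ _).hom ≫ mu Y X
  mu_unit : ∀ X : M, L.obj X ◁ (S.unit ≫ io Pn) ≫ mu X ((J M).obj (toLC Pn)) =
    (ρ_ _).hom ≫ L.map ((ρ_ X).inv ≫ X ◁ ε (J M))
  io_iso : ∀ {K : Space}, St.FC K → IsIso (io K)
  io_nat : ∀ {K K' : Space} (a : St.Map K K'), St.FC K → St.FC K' →
    S.map a ≫ io K' = io K ≫ L.map ((J M).map (toHom a))
  io_mul : ∀ {K K' : Space}, St.FC K → St.FC K' →
    S.mul K K' ≫ io (K.prod K') = (io K ⊗ₘ io K') ≫ mu _ _ ≫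
      L.map (μ (J M) (toLC K) (toLC K'))
  cone : ∀ {X Y C : M} (f : X ⟶ Y) (k : X ⊗ CI M ⟶ C) (i : Y ⟶ C) (d : C ⟶ X ⊗ StabInput.S M)
    (δ : L.obj C ⟶ L.obj X ⊗ S.obj Rr), IsCone f k i d →
    δ ≫ L.obj X ◁ io Rr ≫ mu X (StabInput.S M) = L.map d →
    St.SHCat.Dist (L.map f) (L.map i) (δ ≫ L.obj X ◁ S.line ≫ tenSus (L.obj X))

variable {M : Type 1} [Category.{0} M] [MonoidalCategory M] [SymmetricCategory M]
    [MonoidalClosed M] [HasZeroMorphisms M] [HasColimitsOfSize.{0, 0} M] [StabInput M]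

/-- forgetting the axioms of the suspension spectrum functor -/
def toD {T : St.SHCat} {S : St.Susp T} (G : GenSH M T S) : GenD M T S.toSuspData :=
  ⟨G.L, G.loc, G.mu, G.io, G.mu_iso, G.mu_nat, G.mu_assoc, G.mu_comm, G.mu_unit, G.io_iso,
    G.io_nat, G.io_mul, G.cone⟩

theorem flatJ {K : Space} (h : St.FC K) : Flat (WW M) ((J M).obj (toLC K)) :=
  (flJ (M := M) h).property

/-- natural transformations out of a localization are natural for all morphisms -/
theorem nat_loc {C D E : Type*} [Category* C] [Category* D] [Category* E] (L : C ⥤ D)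
    (W : MorphismProperty C) [L.IsLocalization W] {F₁ F₂ : D ⥤ E} (τ : L ⋙ F₁ ⟶ L ⋙ F₂)
    {X Y : C} (g : L.obj X ⟶ L.obj Y) : F₁.map g ≫ τ.app Y = τ.app X ≫ F₂.map g := by
  have := Localization.full_whiskeringLeft L W E
  obtain ⟨σ, rfl⟩ := ((Functor.whiskeringLeft C D E).obj L).map_surjective τ
  exact σ.naturality g

theorem isCone_J {X Y C : Space} {f : St.Map X Y} {j : St.Map Y C} {k : St.Map (X.prod Hh) C}
    {d : St.Map C (X.prod Rr)} (h : St.IsCone f j k d) :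
    IsCone ((J M).map (toHom f))
      (μ (J M) (toLC X) HH ≫ (J M).map (toHom (X := X.prod Hh) k)) ((J M).map (toHom j))
      ((J M).map (toHom (Y := X.prod Rr) d) ≫ δ (J M) (toLC X) RR) := by
  obtain ⟨hsq, hj, hk⟩ := (St.isCone_iff f j k d).mp h
  have hp := StabInput.pushout (M := M) _ _ _ _ (injective_coneBase (toLC X)) hsq
  refine ⟨hp.of_iso (Iso.refl _) (Functor.Monoidal.μIso (J M) (toLC X) HH).symm (Iso.refl _)
    (Iso.refl _) ?_ ?_ ?_ ?_, ?_, ?_⟩
  · refine Eq.trans ?_ (Category.id_comp _).symm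
    change (J M).map (inclH (toLC X)) ≫ δ (J M) (toLC X) HH =
      (ρ_ ((J M).obj (toLC X))).inv ≫
        (J M).obj (toLC X) ◁ (ε (J M) ≫ (J M).map (point (X := HH) 0))
    rw [← incH_μ, Category.assoc, Functor.Monoidal.μ_δ, Category.comp_id]
  · exact (Category.comp_id _).trans (Category.id_comp _).symm
  · change (J M).map _ ≫ 𝟙 _ = δ (J M) (toLC X) HH ≫ μ (J M) (toLC X) HH ≫ (J M).map _
    rw [Functor.Monoidal.δ_μ_assoc, Category.comp_id]
  · exact (Category.comp_id _).trans (Category.id_comp _).symm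
  · have e : (J M).map (toHom (X := X.prod Hh) k) ≫ (J M).map (toHom (Y := X.prod Rr) d) =
        (J M).map (toLC X ◁ collHH) := ((J M).map_comp _ _).symm.trans (congrArg (J M).map hk)
    rw [Category.assoc, reassoc_of% e, ← μ_natural_right_assoc, Functor.Monoidal.μ_δ,
      Category.comp_id]
  · rw [← Functor.map_comp_assoc, hj, J_map_zero, zero_comp]

/-- the multiplication of `J` -/
noncomputable def mJ (X Y : Space) :
    (J M).obj (toLC X) ⊗ (J M).obj (toLC Y) ⟶ (J M).obj (toLC (X.prod Y)) :=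
  μ (J M) (toLC X) (toLC Y)

namespace GenD

variable {T : St.SHCat} {S : St.SuspData T} (D : GenD M T S)
include D

theorem mu_left {X X' : M} (f : X ⟶ X') (Y : M) :
    D.L.map f ▷ D.L.obj Y ≫ D.mu X' Y = D.mu X Y ≫ D.L.map (f ▷ Y) := by
  have := D.mu_nat f (𝟙 Y)
  rw [D.L.map_id, tensorHom_id, tensorHom_id] at this
  exact this.symm

theorem mu_right (X : M) {Y Y' : M} (g : Y ⟶ Y') :
    D.L.obj X ◁ D.L.map g ≫ D.mu X Y' = D.mu X Y ≫ D.L.map (X ◁ g) := by
  have := D.mu_nat (𝟙 X) g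
  rw [D.L.map_id, id_tensorHom, id_tensorHom] at this
  exact this.symm

theorem isIso_of_whiskerLeft {A B : T.C} (f : A ⟶ B) (h : ∀ X : M, IsIso (D.L.obj X ◁ f)) :
    IsIso f := by
  have := D.loc
  have := Localization.essSurj D.L (WW M)
  let e := D.L.objObjPreimageIso (𝟙_ T.C)
  have := h (D.L.objPreimage (𝟙_ T.C))
  have e1 : f = (λ_ A).inv ≫ e.inv ▷ A ≫ D.L.obj _ ◁ f ≫ e.hom ▷ B ≫ (λ_ B).hom := by
    rw [whisker_exchange_assoc, ← comp_whiskerRight_assoc, e.inv_hom_id, id_whiskerRight,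
      Category.id_comp, leftUnitor_naturality, Iso.inv_hom_id_assoc]
  rw [e1]
  infer_instance

theorem map_eq_iff {X Y : Space} (f g : St.Map X Y) (hX : St.FC X) (hY : St.FC Y) :
    S.map f = S.map g ↔ D.L.map ((J M).map (toHom f)) = D.L.map ((J M).map (toHom g)) := by
  have := D.io_iso hX
  have := D.io_iso hY
  rw [← cancel_mono (D.io Y), D.io_nat f hX hY, D.io_nat g hX hY, cancel_epi]

theorem map_id {X : Space} (f : St.Map X X) (hX : St.FC X) (h : f.toFun = id) :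
    S.map f = 𝟙 (S.obj X) := by
  have := D.io_iso hX
  have e : toHom f = 𝟙 (toLC X) := app_ext fun x => congrFun h x
  rw [← cancel_mono (D.io X), D.io_nat f hX hX, e, (J M).map_id, D.L.map_id, Category.comp_id,
    Category.id_comp]

theorem map_comp {X Y Z : Space} (f : St.Map X Y) (g : St.Map Y Z) (h : St.Map X Z)
    (hX : St.FC X) (hY : St.FC Y) (hZ : St.FC Z) (e : h.toFun = g.toFun ∘ f.toFun) :
    S.map h = S.map f ≫ S.map g := by
  have := D.io_iso hZ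
  have e : toHom h = toHom f ≫ toHom g := app_ext fun x => congrFun e x
  rw [← cancel_mono (D.io Z), D.io_nat h hX hZ, e, Category.assoc, D.io_nat g hY hZ,
    reassoc_of% D.io_nat f hX hY, Functor.map_comp, Functor.map_comp]

theorem mul_isIso {X Y : Space} (hX : St.FC X) (hY : St.FC Y) : IsIso (S.mul X Y) := by
  have := D.io_iso hX
  have := D.io_iso hY
  have := D.io_iso (fc_prod hX hY)
  have := D.mu_iso ((J M).obj (toLC X)) _ (flatJ hY)
  have : IsIso (S.mul X Y ≫ D.io (X.prod Y)) := by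
    rw [D.io_mul hX hY]
    infer_instance
  exact IsIso.of_isIso_comp_right _ (D.io (X.prod Y))

theorem mul_map {X Y Z : Space} (h : St.Map (X.prod Y) Z) (hX : St.FC X) (hY : St.FC Y)
    (hZ : St.FC Z) : S.mul X Y ≫ S.map h ≫ D.io Z = (D.io X ⊗ₘ D.io Y) ≫ D.mu _ _ ≫
      D.L.map (μ (J M) (toLC X) (toLC Y) ≫ (J M).map (toHom (X := X.prod Y) h)) := by
  rw [D.io_nat h (fc_prod hX hY) hZ, reassoc_of% D.io_mul hX hY, D.L.map_comp]

theorem mul_natural {X X' Y Y' : Space} (f : St.Map X X') (g : St.Map Y Y')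
    (h : St.Map (X.prod Y) (X'.prod Y')) (hX : St.FC X) (hX' : St.FC X') (hY : St.FC Y)
    (hY' : St.FC Y')
    (e : ∀ x y, h.toFun (St.smash x y) = St.smash (f.toFun x) (g.toFun y)) :
    S.mul X Y ≫ S.map h = (S.map f ⊗ₘ S.map g) ≫ S.mul X' Y' := by
  have := D.io_iso (fc_prod hX' hY')
  have ha : (toHom h : toLC X ⊗ toLC Y ⟶ toLC X' ⊗ toLC Y') = toHom f ⊗ₘ toHom g := by
    apply tensor_ext (X := toLC X) (Y := toLC Y) (Z := toLC X' ⊗ toLC Y')
    intro x y
    refine (e x y).trans ?_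
    exact (app_tensorHom_smash (toHom f) (toHom g) x y).symm
  rw [← cancel_mono (D.io (X'.prod Y')), Category.assoc, Category.assoc,
    D.mul_map h hX hY (fc_prod hX' hY'), D.io_mul hX' hY', tensorHom_comp_tensorHom_assoc,
    D.io_nat f hX hX', D.io_nat g hY hY', ← tensorHom_comp_tensorHom_assoc,
    ← reassoc_of% D.mu_nat, ← D.L.map_comp, μ_natural, ← ha]

theorem io_mul' {K K' : Space} (h : St.FC K) (h' : St.FC K') : S.mul K K' ≫ D.io (K.prod K') =
    (D.io K ⊗ₘ D.io K') ≫ D.mu _ _ ≫ D.L.map (mJ K K') := D.io_mul h h'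

theorem mul_assoc {X Y Z : Space} (a : St.Map ((X.prod Y).prod Z) (X.prod (Y.prod Z)))
    (hX : St.FC X) (hY : St.FC Y) (hZ : St.FC Z)
    (e : ∀ (x : X.Pt) (y : Y.Pt) (z : Z.Pt),
      a.toFun (St.smash (St.smash x y) z) = St.smash x (St.smash y z)) :
    (S.mul X Y ⊗ₘ 𝟙 (S.obj Z)) ≫ S.mul (X.prod Y) Z ≫ S.map a =
      (α_ (S.obj X) (S.obj Y) (S.obj Z)).hom ≫ (𝟙 (S.obj X) ⊗ₘ S.mul Y Z) ≫
        S.mul X (Y.prod Z) := by
  have := D.io_iso (fc_prod hX (fc_prod hY hZ))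
  have ha : (toHom a : (toLC X ⊗ toLC Y) ⊗ toLC Z ⟶ toLC X ⊗ toLC Y ⊗ toLC Z) =
      (α_ (toLC X) (toLC Y) (toLC Z)).hom := by
    apply tensor_ext₃ (X := toLC X) (Y := toLC Y) (Z := toLC Z)
      (W := toLC X ⊗ (toLC Y ⊗ toLC Z))
    intro x y z
    refine (e x y z).trans ?_
    exact (app_associator_smash (toLC X) (toLC Y) (toLC Z) x y z).symm
  have h1 : (S.mul X Y ⊗ₘ 𝟙 (S.obj Z)) ≫ (D.io (X.prod Y) ⊗ₘ D.io Z) =
      ((D.io X ⊗ₘ D.io Y) ⊗ₘ D.io Z) ≫ D.mu _ _ ▷ _ ≫ D.L.map (mJ X Y) ▷ _ := by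
    rw [tensorHom_comp_tensorHom, D.io_mul' hX hY, ← comp_whiskerRight, ← tensorHom_id,
      tensorHom_comp_tensorHom, Category.id_comp, Category.comp_id]
  have h2 : (𝟙 (S.obj X) ⊗ₘ S.mul Y Z) ≫ (D.io X ⊗ₘ D.io (Y.prod Z)) =
      (D.io X ⊗ₘ (D.io Y ⊗ₘ D.io Z)) ≫ _ ◁ D.mu _ _ ≫ _ ◁ D.L.map (mJ Y Z) := by
    rw [tensorHom_comp_tensorHom, D.io_mul' hY hZ, ← MonoidalCategory.whiskerLeft_comp,
      ← id_tensorHom, tensorHom_comp_tensorHom, Category.id_comp, Category.comp_id]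
  have h3 : mJ X Y ▷ (J M).obj (toLC Z) ≫ mJ (X.prod Y) Z ≫ (J M).map (toHom a) =
      (α_ _ _ _).hom ≫ (J M).obj (toLC X) ◁ mJ Y Z ≫ mJ X (Y.prod Z) :=
    (congrArg (fun t => μ (J M) (toLC X) (toLC Y) ▷ (J M).obj (toLC Z) ≫
      μ (J M) (toLC X ⊗ toLC Y) (toLC Z) ≫ (J M).map t) ha).trans
      (Functor.LaxMonoidal.associativity (J M) (toLC X) (toLC Y) (toLC Z))
  rw [← cancel_mono (D.io (X.prod (Y.prod Z))), Category.assoc, Category.assoc, Category.assoc,
    Category.assoc, D.io_nat a (fc_prod (fc_prod hX hY) hZ) (fc_prod hX (fc_prod hY hZ)),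
    reassoc_of% D.io_mul' (fc_prod hX hY) hZ,
    D.io_mul' hX (fc_prod hY hZ), reassoc_of% h1, reassoc_of% h2, reassoc_of% D.mu_left,
    reassoc_of% D.mu_right, ← D.L.map_comp, ← D.L.map_comp, ← D.L.map_comp, h3, D.L.map_comp,
    reassoc_of% D.mu_assoc, associator_naturality_assoc]

theorem mul_comm {X Y : Space} (a : St.Map (X.prod Y) (Y.prod X)) (hX : St.FC X) (hY : St.FC Y)
    (e : ∀ x y, a.toFun (St.smash x y) = St.smash y x) :
    S.mul X Y ≫ S.map a = (β_ (S.obj X) (S.obj Y)).hom ≫ S.mul Y X := by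
  have := D.io_iso (fc_prod hY hX)
  have ha : (toHom a : toLC X ⊗ toLC Y ⟶ toLC Y ⊗ toLC X) = (β_ (toLC X) (toLC Y)).hom := by
    apply tensor_ext (X := toLC X) (Y := toLC Y) (Z := toLC Y ⊗ toLC X)
    intro x y
    refine (e x y).trans ?_
    exact (app_braiding_smash (toLC X) (toLC Y) x y).symm
  have h3 : μ (J M) (toLC X) (toLC Y) ≫ (J M).map (toHom a) =
      (β_ _ _).hom ≫ μ (J M) (toLC Y) (toLC X) :=
    (congrArg (fun t => μ (J M) (toLC X) (toLC Y) ≫ (J M).map t) ha).trans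
      (Functor.LaxBraided.braided (F := J M) (toLC X) (toLC Y))
  rw [← cancel_mono (D.io (Y.prod X)), Category.assoc, Category.assoc,
    D.mul_map a hX hY (fc_prod hY hX), D.io_mul hY hX, h3, D.L.map_comp, reassoc_of% D.mu_comm,
    BraidedCategory.braiding_naturality_assoc]

theorem mu_unit' (X : M) : (S.unit ≫ D.io Pn) ▷ D.L.obj X ≫ D.mu ((J M).obj (toLC Pn)) X =
    (λ_ _).hom ≫ D.L.map ((λ_ X).inv ≫ ε (J M) ▷ X) := by
  have h := D.mu_comm X ((J M).obj (toLC Pn))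
  rw [← cancel_epi (β_ (D.L.obj X) (𝟙_ T.C)).hom, ← BraidedCategory.braiding_naturality_right_assoc,
    ← h, reassoc_of% D.mu_unit, braiding_leftUnitor_assoc, ← D.L.map_comp, Category.assoc]
  refine congrArg (fun t => (ρ_ (D.L.obj X)).hom ≫ D.L.map t) ?_
  exact (congrArg ((ρ_ X).inv ≫ ·) (BraidedCategory.braiding_naturality_right X (ε (J M)))).trans
    (rightUnitor_inv_braiding_assoc X _)

theorem mul_unit {X : Space} (a : St.Map (Pn.prod X) X) (hX : St.FC X)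
    (e : ∀ x, a.toFun (St.smash (Space.pt (X := Pn) ()) x) = x) :
    (S.unit ⊗ₘ 𝟙 (S.obj X)) ≫ S.mul Pn X ≫ S.map a = (λ_ (S.obj X)).hom := by
  have := D.io_iso hX
  have ha : (toHom a : 𝟙_ LC ⊗ toLC X ⟶ toLC X) = (λ_ (toLC X)).hom := by
    apply tensor_ext (X := toLC Pn) (Y := toLC X) (Z := toLC X)
    intro y x
    refine (e x).trans ?_
    exact (app_leftUnitor_smash (toLC X) x).symm
  have h3 : ε (J M) ▷ (J M).obj (toLC X) ≫ μ (J M) (toLC Pn) (toLC X) ≫ (J M).map (toHom a) =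
      (λ_ _).hom :=
    (congrArg (fun t => ε (J M) ▷ (J M).obj (toLC X) ≫ μ (J M) (𝟙_ LC) (toLC X) ≫
      (J M).map t) ha).trans (Functor.LaxMonoidal.left_unitality (J M) (toLC X)).symm
  rw [← cancel_mono (D.io X), Category.assoc, Category.assoc, D.mul_map a fcPn hX hX,
    tensorHom_comp_tensorHom_assoc, Category.id_comp, tensorHom_def', Category.assoc,
    reassoc_of% D.mu_unit', ← D.L.map_comp, Category.assoc, h3, Iso.inv_hom_id, D.L.map_id,
    Category.comp_id, leftUnitor_naturality]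

theorem unit_isIso : IsIso S.unit := by
  have := D.io_iso fcPn
  have : IsIso (S.unit ≫ D.io Pn) := D.isIso_of_whiskerLeft _ fun X => by
    have := D.mu_iso X _ (flatJ fcPn)
    have : IsIso (D.L.obj X ◁ (S.unit ≫ D.io Pn) ≫ D.mu X ((J M).obj (toLC Pn))) := by
      rw [D.mu_unit]
      infer_instance
    exact IsIso.of_isIso_comp_right _ (D.mu X ((J M).obj (toLC Pn)))
  exact IsIso.of_isIso_comp_right _ (D.io Pn)

theorem cone' {X Y C : Space} (f : St.Map X Y) (j : St.Map Y C) (k : St.Map (X.prod Hh) C)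
    (d : St.Map C (X.prod Rr)) (e : S.obj C ⟶ S.obj X ⊗ S.obj Rr) (hX : St.FC X) (hY : St.FC Y)
    (hC : St.FC C) (h : St.IsCone f j k d) (he : e ≫ S.mul X Rr = S.map d) :
    Triangle.mk (S.map f) (S.map j)
      (e ≫ (𝟙 (S.obj X) ⊗ₘ S.line) ≫ (T.tensor.e (S.obj X)).hom) ∈ distTriang T.C := by
  have := D.io_iso hX
  have := D.io_iso hY
  have := D.io_iso hC
  have h1 : e ≫ (D.io X ⊗ₘ D.io Rr) ≫ D.mu _ _ ≫ D.L.map (μ (J M) (toLC X) (toLC Rr)) =
      D.io C ≫ D.L.map ((J M).map (toHom d)) := by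
    rw [← D.io_mul hX fcRr, reassoc_of% he, D.io_nat d hC (fc_prod hX fcRr)]
  have H := D.cone _ _ _ _ (inv (D.io C) ≫ e ≫ D.io X ▷ S.obj Rr) (isCone_J h) (by
    rw [Category.assoc, IsIso.inv_comp_eq, D.L.map_comp, ← reassoc_of% h1, Category.assoc,
      ← tensorHom_def_assoc, ← D.L.map_comp]
    exact congrArg (fun t => e ≫ (D.io X ⊗ₘ D.io Rr) ≫ t) ((Category.comp_id _).symm.trans
      (congrArg (_ ≫ ·) ((D.L.map_id _).symm.trans (congrArg D.L.map
        (Functor.Monoidal.μ_δ (J M) (toLC X) RR).symm)))))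
  let a := asIso (D.io X)
  let b := asIso (D.io Y)
  let c := asIso (D.io C)
  refine isomorphic_distinguished _ H _ (Triangle.isoMk _ _ a b c (D.io_nat f hX hY)
    (D.io_nat j hY hC) ?_)
  change (e ≫ (𝟙 (S.obj X) ⊗ₘ S.line) ≫ (T.tensor.e (S.obj X)).hom) ≫
    (shiftFunctor T.C (1 : ℤ)).map (D.io X) = D.io C ≫ (inv (D.io C) ≫ e ≫ D.io X ▷ S.obj Rr) ≫
      D.L.obj _ ◁ S.line ≫ (T.tensor.e _).hom
  rw [Category.assoc, Category.assoc, Category.assoc, IsIso.hom_inv_id_assoc, Category.assoc,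
    ← T.tensor.e_naturality, id_tensorHom, whisker_exchange_assoc]

/-! ### comparison of two localizations -/

variable {T₀ : St.SHCat} {S₀ : St.SuspData T₀} (G : GenD M T₀ S₀)

/-- the comparison functor -/
noncomputable def Ph : T.C ⥤ T₀.C :=
  haveI := D.loc
  haveI := G.loc
  (Localization.uniq D.L G.L (WW M)).functor

instance : (D.Ph G).IsEquivalence :=
  haveI := D.loc
  haveI := G.loc
  inferInstanceAs (Localization.uniq D.L G.L (WW M)).functor.IsEquivalence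

/-- the comparison isomorphism -/
noncomputable def ph (X : M) : (D.Ph G).obj (D.L.obj X) ≅ G.L.obj X :=
  haveI := D.loc
  haveI := G.loc
  (Localization.compUniqFunctor D.L G.L (WW M)).app X

theorem ph_nat {X Y : M} (f : X ⟶ Y) :
    (D.Ph G).map (D.L.map f) ≫ (D.ph G Y).hom = (D.ph G X).hom ≫ G.L.map f :=
  haveI := D.loc
  haveI := G.loc
  (Localization.compUniqFunctor D.L G.L (WW M)).hom.naturality f

theorem L_eq_iff {X Y : M} (f g : X ⟶ Y) : D.L.map f = D.L.map g ↔ G.L.map f = G.L.map g := by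
  rw [← (D.Ph G).map_injective.eq_iff, ← cancel_mono (D.ph G Y).hom, ph_nat, ph_nat, cancel_epi]

theorem isIso_L {X Y : M} (f : X ⟶ Y) (h : IsIso (G.L.map f)) : IsIso (D.L.map f) := by
  have : IsIso ((D.Ph G).map (D.L.map f) ≫ (D.ph G Y).hom) := by
    rw [ph_nat]
    infer_instance
  have := IsIso.of_isIso_comp_right ((D.Ph G).map (D.L.map f)) (D.ph G Y).hom
  exact isIso_of_reflects_iso _ (D.Ph G)

theorem isZero_L {X : M} (h : IsZero (G.L.obj X)) : IsZero (D.L.obj X) := by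
  rw [IsZero.iff_id_eq_zero]
  exact (D.Ph G).map_injective ((h.of_iso (D.ph G X)).eq_of_src _ _)

theorem transfer {F : M} (hF : Flat (WW M) F) {X Y : M} (g : D.L.obj X ⟶ D.L.obj Y)
    (t : X ⊗ F ⟶ Y ⊗ F)
    (h : G.mu X F ≫ G.L.map t = ((D.ph G X).inv ≫ (D.Ph G).map g ≫ (D.ph G Y).hom) ▷ G.L.obj F ≫
      G.mu Y F) : D.mu X F ≫ D.L.map t = g ▷ D.L.obj F ≫ D.mu Y F := by
  have := D.loc
  have hi := fun X => G.mu_iso X F hF
  let τ : D.L ⋙ (tensorRight (D.L.obj F) ⋙ D.Ph G) ⟶ D.L ⋙ (D.Ph G ⋙ tensorRight (G.L.obj F)) :=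
    { app := fun X => (D.Ph G).map (D.mu X F) ≫ (D.ph G _).hom ≫ inv (G.mu X F) ≫
        (D.ph G X).inv ▷ G.L.obj F
      naturality := fun X Y f => by
        change (D.Ph G).map (D.L.map f ▷ D.L.obj F) ≫ (D.Ph G).map (D.mu Y F) ≫ (D.ph G _).hom ≫
          inv (G.mu Y F) ≫ (D.ph G Y).inv ▷ G.L.obj F = ((D.Ph G).map (D.mu X F) ≫
            (D.ph G _).hom ≫ inv (G.mu X F) ≫ (D.ph G X).inv ▷ G.L.obj F) ≫
              (D.Ph G).map (D.L.map f) ▷ G.L.obj F
        have e1 : (D.ph G X).inv ≫ (D.Ph G).map (D.L.map f) = G.L.map f ≫ (D.ph G Y).inv := by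
          rw [Iso.inv_comp_eq, ← reassoc_of% D.ph_nat G f, Iso.hom_inv_id, Category.comp_id]
        have e2 : G.L.map (f ▷ F) ≫ inv (G.mu Y F) = inv (G.mu X F) ≫ G.L.map f ▷ G.L.obj F := by
          rw [IsIso.comp_inv_eq, Category.assoc, G.mu_left, IsIso.inv_hom_id_assoc]
        rw [← Functor.map_comp_assoc, D.mu_left, Functor.map_comp_assoc,
          reassoc_of% D.ph_nat G (f ▷ F), reassoc_of% e2, Category.assoc, Category.assoc,
          Category.assoc, ← comp_whiskerRight, ← comp_whiskerRight, e1] }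
  have H : (D.Ph G).map (g ▷ D.L.obj F) ≫ (D.Ph G).map (D.mu Y F) ≫ (D.ph G _).hom ≫
      inv (G.mu Y F) ≫ (D.ph G Y).inv ▷ G.L.obj F = ((D.Ph G).map (D.mu X F) ≫
        (D.ph G _).hom ≫ inv (G.mu X F) ≫ (D.ph G X).inv ▷ G.L.obj F) ≫
          (D.Ph G).map g ▷ G.L.obj F := nat_loc D.L (WW M) τ g
  apply (D.Ph G).map_injective
  rw [← cancel_mono ((D.ph G _).hom ≫ inv (G.mu Y F) ≫ (D.ph G Y).inv ▷ G.L.obj F),
    Functor.map_comp, Functor.map_comp, Category.assoc, Category.assoc, H,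
    reassoc_of% D.ph_nat G t, (IsIso.eq_inv_comp _).2 h]
  simp only [Category.assoc, IsIso.hom_inv_id_assoc, ← comp_whiskerRight, Iso.hom_inv_id,
    Category.comp_id]

end GenD

variable {T T₀ : St.SHCat} {S : St.SuspData T} {S₀ : St.Susp T₀} (D : GenD M T S)
  (G : GenD M T₀ S₀.toSuspData)
include D G

theorem isZero_obj {X : Space} (hX : St.FC X) (h : IsEmpty X.carrier) :
    IsZero (D.L.obj ((J M).obj (toLC X))) := by
  have := G.io_iso hX
  exact D.isZero_L G (((IsZero.iff_id_eq_zero _).2 (S₀.isZero hX h)).of_iso (asIso (G.io X)).symm)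

theorem line_isIso : IsIso S.line := D.isIso_of_whiskerLeft _ fun X => by
  obtain ⟨C, k, i, d, h⟩ := IsCone.exists_isCone (0 : X ⟶ (J M).obj (toLC Em))
  have := D.io_iso fcRr
  have := G.io_iso fcRr
  have := D.mu_iso X (StabInput.S M) (flatJ fcRr)
  have := G.mu_iso X (StabInput.S M) (flatJ fcRr)
  have := S₀.line_isIso
  have h0 := (Triangle.isZero₂_iff_isIso₃ _ (G.cone _ _ _ _
    (G.L.map d ≫ inv (G.L.obj X ◁ G.io Rr ≫ G.mu X (StabInput.S M))) h (by
      rw [Category.assoc, IsIso.inv_hom_id, Category.comp_id]))).1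
    (isZero_obj G G .empty inferInstance)
  have h1 := (Triangle.isZero₂_iff_isIso₃ _ (D.cone _ _ _ _
    (D.L.map d ≫ inv (D.L.obj X ◁ D.io Rr ≫ D.mu X (StabInput.S M))) h (by
      rw [Category.assoc, IsIso.inv_hom_id, Category.comp_id]))).1
    (isZero_obj D G .empty inferInstance)
  change IsIso ((G.L.map d ≫ inv (G.L.obj X ◁ G.io Rr ≫ G.mu X (StabInput.S M))) ≫
    G.L.obj X ◁ S₀.line ≫ (T₀.tensor.e _).hom) at h0
  change IsIso ((D.L.map d ≫ inv (D.L.obj X ◁ D.io Rr ≫ D.mu X (StabInput.S M))) ≫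
    D.L.obj X ◁ S.line ≫ (T.tensor.e _).hom) at h1
  rw [Category.assoc] at h0
  have := D.isIso_L G d (IsIso.of_isIso_comp_right _ (inv (G.L.obj X ◁ G.io Rr ≫
    G.mu X (StabInput.S M)) ≫ G.L.obj X ◁ S₀.line ≫ (T₀.tensor.e _).hom))
  have := IsIso.of_isIso_comp_left (D.L.map d ≫ inv (D.L.obj X ◁ D.io Rr ≫
    D.mu X (StabInput.S M))) (D.L.obj X ◁ S.line ≫ (T.tensor.e _).hom)
  exact IsIso.of_isIso_comp_right _ (T.tensor.e _).hom

theorem full' {X Y : Space} (g : S.obj X ⟶ S.obj Y) (hX : St.FC X) (hY : St.FC Y) :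
    ∃ (n : ℕ) (h : St.Map (X.prod (Rn n)) (Y.prod (Rn n))),
      S.mul X (Rn n) ≫ S.map h = (g ⊗ₘ 𝟙 (S.obj (Rn n))) ≫ S.mul Y (Rn n) := by
  have := D.io_iso hX
  have := G.io_iso hX
  have := G.io_iso hY
  let g' := inv (D.io X) ≫ g ≫ D.io Y
  let g₀ := (D.ph G _).inv ≫ (D.Ph G).map g' ≫ (D.ph G _).hom
  obtain ⟨n, h, hh⟩ := S₀.full (G.io X ≫ g₀ ≫ inv (G.io Y)) hX hY
  refine ⟨n, h, ?_⟩
  have hn : St.FC (Rn n) := .sph n
  have := D.io_iso (fc_prod hY hn)
  have := G.io_iso hn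
  let t : (J M).obj (toLC X) ⊗ (J M).obj (toLC (Rn n)) ⟶
      (J M).obj (toLC Y) ⊗ (J M).obj (toLC (Rn n)) :=
    (μ (J M) (toLC X) (toLC (Rn n)) ≫ (J M).map (toHom (X := X.prod (Rn n)) h)) ≫
      δ (J M) (toLC Y) (toLC (Rn n))
  have ht : t ≫ μ (J M) (toLC Y) (toLC (Rn n)) =
      μ (J M) (toLC X) (toLC (Rn n)) ≫ (J M).map (toHom (X := X.prod (Rn n)) h) :=
    (Category.assoc _ _ _).trans ((congrArg (_ ≫ ·)
      (Functor.Monoidal.δ_μ (J M) (toLC Y) (toLC (Rn n)))).trans (Category.comp_id _))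
  have H := D.transfer G (flatJ hn) g' t (by
    have h1 := G.mul_map h hX hn (fc_prod hY hn)
    change S₀.mul X (Rn n) ≫ S₀.map h = ((G.io X ≫ g₀ ≫ inv (G.io Y)) ⊗ₘ 𝟙 _) ≫
      S₀.mul Y (Rn n) at hh
    rw [reassoc_of% hh, G.io_mul hY hn, ← ht, G.L.map_comp, tensorHom_comp_tensorHom_assoc,
      Category.assoc, Category.assoc, IsIso.inv_hom_id, Category.comp_id, Category.id_comp,
      ← Category.assoc, ← Category.assoc (G.mu _ _), ← Category.assoc (G.io X ⊗ₘ _),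
      cancel_mono] at h1
    rw [← cancel_epi (G.io X ⊗ₘ G.io (Rn n)), ← h1, ← tensorHom_id,
      tensorHom_comp_tensorHom_assoc, Category.comp_id])
  rw [← cancel_mono (D.io (Y.prod (Rn n))), Category.assoc, Category.assoc,
    D.mul_map h hX hn (fc_prod hY hn), D.io_mul hY hn, ← ht, D.L.map_comp, reassoc_of% H,
    ← tensorHom_id g', tensorHom_comp_tensorHom_assoc, tensorHom_comp_tensorHom_assoc,
    IsIso.hom_inv_id_assoc, Category.comp_id, Category.id_comp]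

/-- the suspension spectrum functor -/
def suspOfD : St.Susp T where
  toSuspData := S
  map_id := D.map_id
  map_comp := D.map_comp
  map_homotopic f g hX hY h := (D.map_eq_iff f g hX hY).2 ((D.L_eq_iff G _ _).2
    ((G.map_eq_iff f g hX hY).1 (S₀.map_homotopic f g hX hY h)))
  isZero {X} hX h := by
    have := D.io_iso hX
    exact ((isZero_obj D G hX h).of_iso (asIso (D.io X))).eq_of_src _ _
  unit_isIso := D.unit_isIso
  line_isIso := line_isIso D G
  mul_isIso := D.mul_isIso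
  mul_natural := D.mul_natural
  mul_assoc := D.mul_assoc
  mul_unit := D.mul_unit
  mul_comm := D.mul_comm
  cone := D.cone'
  full := full' D G
  faithful f g hX hY h := S₀.faithful f g hX hY ((G.map_eq_iff f g hX hY).2
    ((D.L_eq_iff G _ _).1 ((D.map_eq_iff f g hX hY).1 h)))

omit G in
/-- **The axioms of a suspension spectrum functor follow from the comparison data.** -/
theorem GenD.exists_susp : ∃ S₁ : St.Susp T, S₁.toSuspData = S := by
  obtain ⟨T₀, S₀, ⟨G⟩⟩ := nonempty_genSH M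
  exact ⟨suspOfD D (toD G), rfl⟩

end Vale.Agent.P251CZ
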