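import Vale.Agent.P251CZ.GenD

/-!
# P251C: comparison data on a category equivalent to `M`
-/

open CategoryTheory MonoidalCategory Limits Pretriangulated
open Functor.LaxMonoidal Functor.OplaxMonoidal

set_option linter.unusedSectionVars false

namespace Vale.Agent.P251CZ

open Vale.Agent.P251 Vale.Agent.P251.G Vale.Agent.P251.G.LC Vale.Agent.P251.H
  Vale.Agent.P251.H.StabInput Vale.Agent.P251CM
open Vale.Agent.P251.St (Space toLC toHom ofHom Pn Hh Rr Rn Em fcPn fcRr fc_prod)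
open Vale.Agent.P251.St.SHCat (tenSus)

variable {M : Type 1} [Category.{0} M] [MonoidalCategory M] [SymmetricCategory M]
    [MonoidalClosed M] [HasZeroMorphisms M] [HasColimitsOfSize.{0, 0} M] [StabInput M]
    {A : Type 1} [Category.{0} A]

/-- comparison data on `A`, read through `N : A ⥤ M` -/
structure Mid (N : A ⥤ M) (T : St.SHCat) (S : St.SuspData T) where
  /-- the localization functor -/
  L : A ⥤ T.C
  loc : L.IsLocalization ((WW M).inverseImage N)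
  /-- the lax symmetric monoidal structure -/
  mu : ∀ {X Y Z : A}, (N.obj X ⊗ N.obj Y ⟶ N.obj Z) → (L.obj X ⊗ L.obj Y ⟶ L.obj Z)
  /-- the comparison of suspension spectra -/
  io : ∀ {K : Space} {X : A}, ((J M).obj (toLC K) ⟶ N.obj X) → (S.obj K ⟶ L.obj X)
  mu_iso : ∀ X Y : A, Flat (WW M) (N.obj Y) →
    ∃ (Z : A) (b : N.obj X ⊗ N.obj Y ⟶ N.obj Z), IsIso b ∧ IsIso (mu b)
  mu_nat : ∀ {X Y Z X' Y' Z' : A} (b : N.obj X ⊗ N.obj Y ⟶ N.obj Z)
    (b' : N.obj X' ⊗ N.obj Y' ⟶ N.obj Z') (f : X ⟶ X') (g : Y ⟶ Y') (h : Z ⟶ Z'),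
    b ≫ N.map h = (N.map f ⊗ₘ N.map g) ≫ b' → mu b ≫ L.map h = (L.map f ⊗ₘ L.map g) ≫ mu b'
  mu_assoc : ∀ {X Y Z P Q W : A} (a : N.obj X ⊗ N.obj Y ⟶ N.obj P)
    (b : N.obj P ⊗ N.obj Z ⟶ N.obj W) (c : N.obj Y ⊗ N.obj Z ⟶ N.obj Q)
    (d : N.obj X ⊗ N.obj Q ⟶ N.obj W), a ▷ N.obj Z ≫ b = (α_ _ _ _).hom ≫ N.obj X ◁ c ≫ d →
    mu a ▷ L.obj Z ≫ mu b = (α_ _ _ _).hom ≫ L.obj X ◁ mu c ≫ mu d
  mu_comm : ∀ {X Y Z : A} (b : N.obj X ⊗ N.obj Y ⟶ N.obj Z) (c : N.obj Y ⊗ N.obj X ⟶ N.obj Z),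
    b = (β_ _ _).hom ≫ c → mu b = (β_ _ _).hom ≫ mu c
  mu_unit : ∀ {X Y Z : A} (b : N.obj X ⊗ N.obj Y ⟶ N.obj Z) (u : (J M).obj (toLC Pn) ⟶ N.obj Y)
    (g : X ⟶ Z), N.obj X ◁ (ε (J M) ≫ u) ≫ b = (ρ_ _).hom ≫ N.map g →
    L.obj X ◁ (S.unit ≫ io u) ≫ mu b = (ρ_ _).hom ≫ L.map g
  io_iso : ∀ {K : Space}, St.FC K →
    ∃ (X : A) (u : (J M).obj (toLC K) ⟶ N.obj X), IsIso u ∧ IsIso (io u)
  io_nat : ∀ {K K' : Space} {X X' : A} (u : (J M).obj (toLC K) ⟶ N.obj X)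
    (u' : (J M).obj (toLC K') ⟶ N.obj X') (a : St.Map K K') (f : X ⟶ X'), St.FC K → St.FC K' →
    (J M).map (toHom a) ≫ u' = u ≫ N.map f → S.map a ≫ io u' = io u ≫ L.map f
  io_mul : ∀ {K K' : Space} {X Y Z : A} (u : (J M).obj (toLC K) ⟶ N.obj X)
    (v : (J M).obj (toLC K') ⟶ N.obj Y) (w : (J M).obj (toLC (K.prod K')) ⟶ N.obj Z)
    (b : N.obj X ⊗ N.obj Y ⟶ N.obj Z), St.FC K → St.FC K' →
    mJ K K' ≫ w = (u ⊗ₘ v) ≫ b → S.mul K K' ≫ io w = (io u ⊗ₘ io v) ≫ mu b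
  cone : ∀ {X Y : A} (f : X ⟶ Y), ∃ (Z Z' R : A) (v : (J M).obj (toLC Rr) ⟶ N.obj R)
    (s : N.obj X ⊗ N.obj R ⟶ N.obj Z') (j : Y ⟶ Z) (d : Z ⟶ Z') (k : N.obj X ⊗ CI M ⟶ N.obj Z)
    (d' : N.obj Z ⟶ N.obj X ⊗ (J M).obj (toLC Rr)) (δ : L.obj Z ⟶ L.obj X ⊗ S.obj Rr),
    IsIso v ∧ IsIso s ∧ IsCone (N.map f) k (N.map j) d' ∧ d' ≫ N.obj X ◁ v ≫ s = N.map d ∧
    δ ≫ L.obj X ◁ io v ≫ mu s = L.map d ∧
    St.SHCat.Dist (L.map f) (L.map j) (δ ≫ L.obj X ◁ S.line ≫ tenSus (L.obj X))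

variable (N : A ⥤ M) [N.IsEquivalence]

/-- the counit -/
noncomputable def ep (X : M) : N.obj (N.inv.obj X) ≅ X := N.asEquivalence.counitIso.app X

theorem map_inv_map {X Y : M} (f : X ⟶ Y) :
    N.map (N.inv.map f) = (ep N X).hom ≫ f ≫ (ep N Y).inv := N.asEquivalence.fun_inv_map _ _ f

/-- the tensor product in `A` -/
noncomputable def bb (X Y : M) :
    N.obj (N.inv.obj X) ⊗ N.obj (N.inv.obj Y) ⟶ N.obj (N.inv.obj (X ⊗ Y)) :=
  ((ep N X).hom ⊗ₘ (ep N Y).hom) ≫ (ep N (X ⊗ Y)).inv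

instance (X Y : M) : IsIso (bb N X Y) := by
  unfold bb
  infer_instance

namespace Mid

variable {N} {T : St.SHCat} {S : St.SuspData T} (D : Mid N T S)

theorem mu_post {X Y Z W : A} (b : N.obj X ⊗ N.obj Y ⟶ N.obj Z) (h : Z ⟶ W) :
    D.mu b ≫ D.L.map h = D.mu (b ≫ N.map h) := by
  have := D.mu_nat b (b ≫ N.map h) (𝟙 X) (𝟙 Y) h (by simp)
  simpa using this

theorem isIso_mu {X Y Z : A} (b : N.obj X ⊗ N.obj Y ⟶ N.obj Z) [IsIso b]
    (h : Flat (WW M) (N.obj Y)) : IsIso (D.mu b) := by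
  obtain ⟨Z', c, _, _⟩ := D.mu_iso X Y h
  have : IsIso (N.map (N.preimage (inv c ≫ b))) := by
    rw [N.map_preimage]
    infer_instance
  have := isIso_of_reflects_iso (N.preimage (inv c ≫ b)) N
  have e := D.mu_post c (N.preimage (inv c ≫ b))
  rw [N.map_preimage, IsIso.hom_inv_id_assoc] at e
  rw [← e]
  infer_instance

theorem io_post {K : Space} (hK : St.FC K) {X Y : A} (u : (J M).obj (toLC K) ⟶ N.obj X)
    (h : X ⟶ Y) : D.io u ≫ D.L.map h = D.io (u ≫ N.map h) := by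
  obtain ⟨X', v, _, _⟩ := D.io_iso hK
  have e : (J M).map (toHom (ofHom (𝟙 (toLC K)))) = 𝟙 _ := (J M).map_id _
  have h1 := D.io_nat v v (ofHom (𝟙 (toLC K))) (𝟙 _) hK hK (by rw [e]; simp)
  rw [D.L.map_id, Category.comp_id] at h1
  have h2 : S.map (ofHom (𝟙 (toLC K))) = 𝟙 _ := by
    rw [← cancel_mono (D.io v), h1, Category.id_comp]
  rw [← D.io_nat u (u ≫ N.map h) (ofHom (𝟙 (toLC K))) h hK hK (by rw [e]; simp), h2,
    Category.id_comp]

theorem isIso_io {K : Space} (hK : St.FC K) {X : A} (u : (J M).obj (toLC K) ⟶ N.obj X)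
    [IsIso u] : IsIso (D.io u) := by
  obtain ⟨X', v, _, _⟩ := D.io_iso hK
  have : IsIso (N.map (N.preimage (inv v ≫ u))) := by
    rw [N.map_preimage]
    infer_instance
  have := isIso_of_reflects_iso (N.preimage (inv v ≫ u)) N
  have e := D.io_post hK v (N.preimage (inv v ≫ u))
  rw [N.map_preimage, IsIso.hom_inv_id_assoc] at e
  rw [← e]
  infer_instance

theorem isLoc : (N.inv ⋙ D.L).IsLocalization (WW M) := by
  have := D.loc
  refine Functor.IsLocalization.of_equivalence_source D.L ((WW M).inverseImage N) (N.inv ⋙ D.L)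
    (WW M) N.asEquivalence (fun X Y f hf => MorphismProperty.le_isoClosure _ _ hf)
    (fun X Y f hf => Localization.inverts D.L ((WW M).inverseImage N) _ ?_)
    ((Functor.associator _ _ _).symm ≪≫
      Functor.isoWhiskerRight N.asEquivalence.unitIso.symm D.L ≪≫ D.L.leftUnitor)
  exact ((WW M).arrow_mk_iso_iff (Arrow.isoMk (ep N X) (ep N Y) (by
    change (ep N X).hom ≫ f = N.map (N.inv.map f) ≫ (ep N Y).hom
    rw [map_inv_map]
    simp) :
    Arrow.mk (N.map (N.inv.map f)) ≅ Arrow.mk f)).2 hf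

theorem flat_ep {Y : M} (h : Flat (WW M) Y) : Flat (WW M) (N.obj (N.inv.obj Y)) :=
  fun B B' g hg => ((WW M).arrow_mk_iso_iff (Arrow.isoMk (whiskerRightIso (ep N Y) B)
    (whiskerRightIso (ep N Y) B') (whisker_exchange (ep N Y).hom g).symm :
      Arrow.mk (_ ◁ g) ≅ Arrow.mk (Y ◁ g))).2 (h g hg)

theorem cone' {X Y C : M} (f : X ⟶ Y) (k : X ⊗ CI M ⟶ C) (i : Y ⟶ C)
    (d : C ⟶ X ⊗ (J M).obj (toLC Rr))
    (e : D.L.obj (N.inv.obj C) ⟶ D.L.obj (N.inv.obj X) ⊗ S.obj Rr) (h : IsCone f k i d)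
    (he : e ≫ D.L.obj (N.inv.obj X) ◁ D.io (ep N ((J M).obj (toLC Rr))).inv ≫
      D.mu (bb N X ((J M).obj (toLC Rr))) = D.L.map (N.inv.map d)) :
    Triangle.mk (D.L.map (N.inv.map f)) (D.L.map (N.inv.map i))
      (e ≫ D.L.obj (N.inv.obj X) ◁ S.line ≫ tenSus (D.L.obj (N.inv.obj X))) ∈ distTriang T.C := by
  obtain ⟨Z, Z', R, v, s, j, d₀, k', d', δ₀, _, _, hc, hd, hδ, H⟩ := D.cone (N.inv.map f)
  let c : N.obj Z ≅ C := hc.po.isoIsPushout _ _ (h.po.of_iso (ep N X).symm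
    (whiskerRightIso (ep N X).symm (CI M)) (ep N Y).symm (Iso.refl C)
    (coneBase_naturality (ep N X).inv) (by rw [map_inv_map]; simp)
    (inl' := (ep N X).hom ▷ CI M ≫ k) (inr' := (ep N Y).hom ≫ i)
    (by simp [← comp_whiskerRight_assoc]) (by simp))
  have c1 : k' ≫ c.hom = (ep N X).hom ▷ CI M ≫ k := hc.po.inl_isoIsPushout_hom _ _ _
  have c2 : N.map j ≫ c.hom = (ep N Y).hom ≫ i := hc.po.inr_isoIsPushout_hom _ _ _
  have c3 : c.hom ≫ d = d' ≫ (ep N X).hom ▷ _ := by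
    refine hc.po.hom_ext ?_ ?_
    · rw [reassoc_of% c1, reassoc_of% hc.kq]
      exact (congrArg (_ ≫ ·) h.kq).trans (whisker_exchange _ _).symm
    · rw [reassoc_of% c2, reassoc_of% hc.iq, zero_comp]
      exact (congrArg (_ ≫ ·) h.iq).trans comp_zero
  let w : Z ≅ N.inv.obj C := N.preimageIso (c ≪≫ (ep N C).symm)
  have hw : N.map w.hom = c.hom ≫ (ep N C).inv := N.map_preimage _
  let p : R ⟶ N.inv.obj ((J M).obj (toLC Rr)) := N.preimage (inv v ≫ (ep N _).inv)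
  have hp : v ≫ N.map p = (ep N _).inv := by rw [N.map_preimage, IsIso.hom_inv_id_assoc]
  let q : Z' ⟶ N.inv.obj (X ⊗ (J M).obj (toLC Rr)) :=
    N.preimage (inv s ≫ N.obj _ ◁ N.map p ≫ bb N X _)
  have hq : s ≫ N.map q = N.obj _ ◁ N.map p ≫ bb N X _ := by
    rw [N.map_preimage, IsIso.hom_inv_id_assoc]
  have h1 := D.mu_nat s (bb N X _) (𝟙 _) p q (by rw [hq, N.map_id, id_tensorHom])
  rw [D.L.map_id, id_tensorHom] at h1
  have h2 : d₀ ≫ q = w.hom ≫ N.inv.map d := N.map_injective (by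
    rw [N.map_comp, N.map_comp, ← hd, hw, map_inv_map, Category.assoc, Category.assoc, hq,
      ← MonoidalCategory.whiskerLeft_comp_assoc, hp, Category.assoc, Iso.inv_hom_id_assoc,
      reassoc_of% c3, bb, tensorHom_def', Category.assoc,
      ← MonoidalCategory.whiskerLeft_comp_assoc, Iso.inv_hom_id, whiskerLeft_id,
      Category.id_comp])
  have := D.isIso_io fcRr (ep N ((J M).obj (toLC Rr))).inv
  have := D.isIso_mu (bb N X ((J M).obj (toLC Rr))) (flat_ep (flatJ fcRr))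
  have h3 : δ₀ = D.L.map w.hom ≫ e := by
    rw [← cancel_mono (D.L.obj (N.inv.obj X) ◁ D.io (ep N ((J M).obj (toLC Rr))).inv ≫
      D.mu (bb N X ((J M).obj (toLC Rr)))), Category.assoc, he, ← D.L.map_comp, ← h2, ← hp,
      ← D.io_post fcRr, MonoidalCategory.whiskerLeft_comp, Category.assoc, ← h1, reassoc_of% hδ,
      D.L.map_comp]
  have h4 : j ≫ w.hom = N.inv.map i := N.map_injective (by
    rw [N.map_comp, hw, reassoc_of% c2, map_inv_map])
  refine isomorphic_distinguished _ H _ (Triangle.isoMk _ _ (Iso.refl _) (Iso.refl _)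
    (D.L.mapIso w).symm ((Category.comp_id _).trans (Category.id_comp _).symm) ?_ ?_)
  · change D.L.map (N.inv.map i) ≫ D.L.map w.inv = 𝟙 _ ≫ D.L.map j
    rw [← h4, ← D.L.map_comp, Category.assoc, w.hom_inv_id, Category.comp_id, Category.id_comp]
  · change (e ≫ D.L.obj (N.inv.obj X) ◁ S.line ≫ tenSus (D.L.obj (N.inv.obj X))) ≫
      (shiftFunctor T.C (1 : ℤ)).map (𝟙 _) = D.L.map w.inv ≫ δ₀ ≫
        D.L.obj (N.inv.obj X) ◁ S.line ≫ tenSus (D.L.obj (N.inv.obj X))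
    rw [CategoryTheory.Functor.map_id, Category.comp_id, h3, Category.assoc,
      ← D.L.map_comp_assoc, w.inv_hom_id, D.L.map_id, Category.id_comp]

/-- the comparison data on `M` -/
noncomputable def genD : GenD M T S where
  L := N.inv ⋙ D.L
  loc := D.isLoc
  mu X Y := D.mu (bb N X Y)
  io K := D.io (ep N _).inv
  mu_iso X Y h := D.isIso_mu _ (flat_ep h)
  mu_nat f g := D.mu_nat _ _ _ _ _ (by rw [map_inv_map, map_inv_map, map_inv_map]; simp [bb])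
  mu_assoc X Y Z := by
    refine Eq.trans (congrArg (_ ≫ ·) (D.mu_post _ _)) (D.mu_assoc _ _ _ _ ?_)
    rw [map_inv_map, bb, bb, bb, bb, ← tensorHom_id, ← id_tensorHom]
    simp only [Category.assoc, Iso.inv_hom_id_assoc, tensorHom_comp_tensorHom_assoc,
      Iso.inv_hom_id, Category.comp_id, Category.id_comp]
    rw [associator_naturality_assoc]
  mu_comm X Y := (D.mu_post _ _).trans (D.mu_comm _ _ (by rw [map_inv_map]; simp [bb]))
  mu_unit X := D.mu_unit _ _ _ (by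
    rw [bb, map_inv_map, tensorHom_def', Category.assoc, ← MonoidalCategory.whiskerLeft_comp_assoc,
      Category.assoc, Iso.inv_hom_id, Category.comp_id, whisker_exchange_assoc,
      ← rightUnitor_naturality_assoc, Category.assoc, Iso.hom_inv_id_assoc]
    rfl)
  io_iso h := D.isIso_io h _
  io_nat a h h' := D.io_nat _ _ a _ h h' (by rw [map_inv_map]; simp)
  io_mul {K K'} h h' := by
    refine (D.io_mul (ep N _).inv (ep N _).inv _ (bb N _ _ ≫ N.map (N.inv.map (mJ K K'))) h h'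
      ?_).trans (congrArg (_ ≫ ·) (D.mu_post _ _).symm)
    rw [map_inv_map]
    simp [bb]
  cone f k i d e h he := D.cone' f k i d e h he

end Mid

end Vale.Agent.P251CZ
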