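import Vale.Agent.P251CZ.Mid
import Vale.Agent.P251CX.Top

/-!
# P251C: `IsSH T S` implies the axioms of a suspension spectrum functor
-/

open CategoryTheory MonoidalCategory Limits OnePoint
open Functor.LaxMonoidal Functor.OplaxMonoidal

set_option linter.unusedSectionVars false

namespace Vale.Agent.P251CE

open Vale.Agent.P251.H Vale.Agent.P251CA Vale.Agent.P251CA.CF Vale.Agent.P251CA.Sp0
open Vale.Agent.P251C
open Vale.Agent.P251CJ (eh)

theorem tq_assoc' {C : Type*} [Category* C] [MonoidalCategory C] [BraidedCategory C]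
    {D : Type*} [Category D] [MonoidalCategory D] [BraidedCategory D]
    {r : C ⥤ D} {q : D ⥤ C} (adj : r ⊣ q) [r.Braided] [q.Full] [q.Faithful] {X Y Z P Q W : D}
    (a : X ⊗ Y ⟶ P) (b : P ⊗ Z ⟶ W) (c : Y ⊗ Z ⟶ Q) (d : X ⊗ Q ⟶ W)
    (h : a ▷ Z ≫ b = (α_ _ _ _).hom ≫ X ◁ c ≫ d) :
    tq adj a ▷ q.obj Z ≫ tq adj b = (α_ _ _ _).hom ≫ q.obj X ◁ tq adj c ≫ tq adj d := by
  let _ := adj.rightAdjointLaxMonoidal
  rw [tq_eq adj a, comp_whiskerRight_assoc, ← tq_right, h, tq_eq adj (_ ≫ _), q.map_comp,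
    tq_eq adj c, MonoidalCategory.whiskerLeft_comp_assoc, ← tq_left, tq_eq]
  exact Functor.LaxMonoidal.associativity_assoc q X Y Z _

variable {Q : OSp ⥤ CF} (d : QD Q) {X Y Z P R W : OSp}

theorem act_heq {p q : ℕ} (h : p = q) (e : Emb p q) (he : ∀ s, ap e s = s ∘ Fin.cast h.symm)
    (x : X.sp p) : HEq (X.act (.some e) x) x := by
  subst h
  exact heq_of_eq (X.act_id p e he x)

theorem QD.cb_assoc' (a : Bim X Y P) (b : Bim P Z W) (c : Bim Y Z R) (b' : Bim X R W)
    (h : d.cb a ▷ Q.obj Z ≫ d.cb b = (α_ _ _ _).hom ≫ Q.obj X ◁ d.cb c ≫ d.cb b')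
    (l m n : ℕ) (x : X.sp l) (y : Y.sp m) (z : Z.sp n) :
    HEq (b.ev (a.ev x y) z) (b'.ev x (c.ev y z)) := by
  obtain ⟨e', he'⟩ := ex_assoc' l m n
  have H := congrArg (fun t => fn t (em (em (d.e X l x) (d.e Y m y)) (d.e Z n z))) h
  rw [fn_comp, fn_comp, fn_comp, whiskerRight_em, d.fn_cb, d.fn_cb,
    associator_em (eh (OnePoint.some e')) fun r s t => (app_eh _ _).trans (congrArg vc (he' r s t)),
    fn_act, fn_act, whiskerLeft_em, d.fn_cb, d.fn_cb, d.act, Equiv.apply_eq_iff_eq] at H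
  rw [H]
  refine act_heq (Nat.add_assoc l m n).symm e' (fun v => ?_) _
  obtain ⟨r, w, rfl⟩ := ex_append v
  obtain ⟨s, t, rfl⟩ := ex_append w
  rw [he', Fin.append_assoc]

theorem QD.cb_comm' (b : Bim X Y Z) (c : Bim Y X Z) (h : d.cb b = (β_ _ _).hom ≫ d.cb c)
    (m n : ℕ) (e : Emb (m + n) (n + m)) (he : ∀ s t, ap e (Fin.append s t) = Fin.append t s)
    (x : X.sp m) (y : Y.sp n) : Z.act (.some e) (b.ev x y) = c.ev y x := by
  obtain ⟨e', he'⟩ := ex_swap n m
  obtain ⟨i, hi⟩ := P251CJ.exists_ap_id (n + m)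
  have H := congrArg (fun t => fn t (em (d.e X m x) (d.e Y n y))) h
  rw [fn_comp, d.fn_cb,
    braiding_em (eh (OnePoint.some e')) fun s t => (app_eh _ _).trans (congrArg vc (he' t s)),
    fn_act, d.fn_cb, d.act, Equiv.apply_eq_iff_eq] at H
  rw [H, ← Z.act_comp _ _ _ e' e i, Z.act_id _ i hi]
  intro s
  obtain ⟨s, t, rfl⟩ := ex_append s
  rw [he', he]
  exact hi _

end Vale.Agent.P251CE

namespace Vale.Agent.P251CZ

open Vale.Agent.P251 Vale.Agent.P251.G Vale.Agent.P251.G.LC Vale.Agent.P251.H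
  Vale.Agent.P251.H.StabInput Vale.Agent.P251C Vale.Agent.P251CM Vale.Agent.P251CR
  Vale.Agent.P251CE
open Vale.Agent.P251CA (CF)
open Vale.Agent.P251.St (Space toLC toHom Pn Hh Rr)
open Vale.Agent.P251CX (F o mo mn po pn bo bn o_surj)

section

variable {M : Type 1} [Category.{0} M] [MonoidalCategory M] [SymmetricCategory M]
    [MonoidalClosed M] [HasZeroMorphisms M] [HasColimitsOfSize.{0, 0} M] [StabInput M]

/-- The dictionary, with the converse implications. -/
structure Br2 (E : OSp ⥤ M) extends Br E where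
  assoc' : ∀ {X Y Z P Q W : OSp} (a : Bim X Y P) (b : Bim P Z W) (c : Bim Y Z Q) (d : Bim X Q W),
    tb a ▷ E.obj Z ≫ tb b = (α_ _ _ _).hom ≫ E.obj X ◁ tb c ≫ tb d →
    ∀ l m n (x : X.sp l) (y : Y.sp m) (z : Z.sp n), HEq (b.ev (a.ev x y) z) (d.ev x (c.ev y z))
  comm' : ∀ {X Y Z : OSp} (b : Bim X Y Z) (c : Bim Y X Z), tb b = (β_ _ _).hom ≫ tb c →
    ∀ m n (e : Emb (m + n) (n + m)), (∀ s t, ap e (Fin.append s t) = Fin.append t s) →
      ∀ x y, Z.act (.some e) (b.ev x y) = c.ev y x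

variable {E : OSp ⥤ M} [E.IsEquivalence]

theorem Br.tp_mul' (B : Br E) {K K' : Space} {X Y Z : OSp} (u : Pm K X 0) (v : Pm K' Y 0)
    (w : Pm (K.prod K') Z 0) (b : Bim X Y Z)
    (h : μ (J M) (toLC K) (toLC K') ≫ B.tp w = (B.tp u ⊗ₘ B.tp v) ≫ B.tb b) (k : K.Pt)
    (k' : K'.Pt) : w.1 (St.smash k k') = b.ev (u.1 k) (v.1 k') := by
  induction k' using OnePoint.rec with
  | infty =>
    rw [v.2, b.pt_right]
    refine (congrArg w.1 ?_).trans w.2
    induction k using OnePoint.rec with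
    | infty => rfl
    | coe k => rfl
  | coe k' =>
    let g : X ⟶ Z := E.preimage ((ρ_ _).inv ≫
      E.obj X ◁ (ε (J M) ≫ (J M).map (point (X := toLC K') k') ≫ B.tp v) ≫ B.tb b)
    have hg : E.obj X ◁ (ε (J M) ≫ (J M).map (point (X := toLC K') k') ≫ B.tp v) ≫ B.tb b =
        (ρ_ _).hom ≫ E.map g := by rw [E.map_preimage, Iso.hom_inv_id_assoc]
    have hg' := (B.slice b v k' g).2 hg
    let a : toLC K ⟶ toLC (K.prod K') := (ρ_ (toLC K)).inv ≫ toLC K ◁ point (X := toLC K') k'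
    have e1 : (J M).obj (toLC K) ◁ (ε (J M) ≫ (J M).map (point (X := toLC K') k')) ≫
        μ (J M) (toLC K) (toLC K') = (ρ_ _).hom ≫ (J M).map a := by
      rw [MonoidalCategory.whiskerLeft_comp, Category.assoc, μ_natural_right, Functor.map_comp,
        Functor.LaxMonoidal.right_unitality (J M) (toLC K)]
      simp only [Category.assoc, Iso.map_hom_inv_id_assoc]
    have ha : (J M).map a ≫ B.tp w = B.tp u ≫ E.map g := by
      rw [← cancel_epi (ρ_ ((J M).obj (toLC K))).hom, ← reassoc_of% e1, h, tensorHom_def',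
        Category.assoc, ← MonoidalCategory.whiskerLeft_comp_assoc, whisker_exchange_assoc,
        Category.assoc, hg, rightUnitor_naturality_assoc]
    refine Eq.trans (congrArg w.1 ?_) (((B.tp_nat u w (St.ofHom a) g).2 ha k).trans (hg' 0 _))
    induction k using OnePoint.rec with
    | infty => exact (app_infty a).symm
    | coe k => rfl

variable (B : Br2 E) {T : St.SHCat} {S : St.SuspData T} (I : P251CX.IsSH T S)

/-- the localization functor -/
def fL : P251CX.OSp ⥤ T.C := ⟨I.L, I.l, I.l_id, I.l_comp⟩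

/-- bimorphisms from morphisms -/
noncomputable def sb {X Y Z : P251CX.OSp} (t : E.obj (o X) ⊗ E.obj (o Y) ⟶ E.obj (o Z)) :
    P251CX.Bim X Y Z := bn (B.tb.symm t)

theorem tb_sb {X Y Z : P251CX.OSp} (t : E.obj (o X) ⊗ E.obj (o Y) ⟶ E.obj (o Z)) :
    B.tb (bo (sb B t)) = t := B.tb.apply_symm_apply t

theorem sb_tb {X Y Z : P251CX.OSp} (b : P251CX.Bim X Y Z) : sb B (B.tb (bo b)) = b :=
  congrArg bn (B.tb.symm_apply_apply (bo b))

/-- based maps from morphisms -/
noncomputable def su {K : Space} {X : P251CX.OSp} (t : (J M).obj (toLC K) ⟶ E.obj (o X)) :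
    P251CX.Pm K X 0 := pn (B.tp.symm t)

theorem tp_su {K : Space} {X : P251CX.OSp} (t : (J M).obj (toLC K) ⟶ E.obj (o X)) :
    B.tp (po (su B t)) = t := B.tp.apply_symm_apply t

theorem su_tp {K : Space} {X : P251CX.OSp} (u : P251CX.Pm K X 0) : su B (B.tp (po u)) = u :=
  congrArg pn (B.tp.symm_apply_apply (po u))

/-- The comparison data. -/
noncomputable def mid : Mid (F ⋙ E) T S where
  L := fL I
  loc := by
    have e : (WW M).inverseImage (F ⋙ E) = P251CX.piIso := by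
      ext X Y f
      exact ((P251CX.piIso_iff f).trans (B.pi (mo f))).symm
    rw [e]
    exact I.loc
  mu t := I.mu (sb B t)
  io t := I.io (su B t)
  mu_iso X Y h := by
    obtain ⟨Z, b, hb, hi⟩ := I.mu_iso X Y
    refine ⟨Z, B.tb (bo b), (B.isUniv_iff _).1 ((P251CX.isUniv_iff b).1 hb), ?_⟩
    erw [sb_tb]
    exact hi ((P251CX.isFlat_iff Y).2 ((B.isFlat_iff _).2 h))
  mu_nat b b' f g h H := (I.mu_nat _ _ _ _ _ _ (sb B b) (sb B b') f g h
    ((B.tb_nat (bo (sb B b)) (bo (sb B b')) (mo f) (mo g) (mo h)).2 (by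
      erw [tb_sb, tb_sb]
      exact H))).w
  mu_assoc a b c d H := by
    have := (I.mu_assoc _ _ _ _ _ _ (sb B a) (sb B b) (sb B c) (sb B d)
      (B.assoc' (bo (sb B a)) (bo (sb B b)) (bo (sb B c)) (bo (sb B d)) (by
        erw [tb_sb, tb_sb, tb_sb, tb_sb]
        exact H))).w
    simp only [tensorHom_id, id_tensorHom, Category.assoc] at this
    exact this
  mu_comm b c H := I.mu_comm _ _ _ (sb B b) (sb B c) (B.comm' (bo (sb B b)) (bo (sb B c)) (by
    erw [tb_sb, tb_sb]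
    exact H))
  mu_unit b u g H := by
    have := (I.mu_unit _ _ _ (sb B b) (su B u) g
      ((B.tb_unit (bo (sb B b)) (po (su B u)) (mo g)).2 (by
        erw [tb_sb, tp_su]
        exact H))).w
    simp only [id_tensorHom, braiding_leftUnitor] at this
    exact this
  io_iso {K} h := by
    obtain ⟨X, u, hu, -, hi⟩ := I.io_iso K h
    refine ⟨X, B.tp (po u), (B.isFree_iff _).1 ((P251CX.isFree_iff u).1 hu), ?_⟩
    erw [su_tp]
    exact hi
  io_nat u u' a f h h' H := (I.io_nat _ _ _ _ (su B u) (su B u') a f h h'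
    ((B.tp_nat (po (su B u)) (po (su B u')) a (mo f)).2 (by
      erw [tp_su, tp_su]
      exact H))).w
  io_mul u v w b h h' H := (I.io_mul _ _ _ _ _ (su B u) (su B v) (su B w) (sb B b) h h'
    (B.tp_mul' (po (su B u)) (po (su B v)) (po (su B w)) (bo (sb B b)) (by
      erw [tp_su, tp_su, tp_su, tb_sb]
      exact H))).w
  cone {X Y} f := by
    obtain ⟨Z, Z', H, R, u, v, b, s, j, d, hu, hv, hs, h1, h2, h3, h4, δ, h5, h6⟩ := I.cone X Y f
    have hc : MCone (mo f) (mo j) (mo d) (po u) (po v) (bo b) (bo s) := by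
      refine ⟨⟨(P251CX.isFree_iff u).1 hu, (P251CX.isFree_iff v).1 hv,
        (P251CX.isUniv_iff s).1 hs⟩, fun n x => (h1 n x).symm, fun W j' k' hk => ?_, h3, h4⟩
      obtain ⟨W, rfl⟩ := o_surj W
      obtain ⟨w, hw, hw'⟩ := h2 W (mn j') (bn k') fun n x => (hk n x).symm
      exact ⟨mo w, ⟨congrArg mo hw.1, hw.2⟩,
        fun w' h' => congrArg mo (hw' (mn w') ⟨congrArg mn h'.1, h'.2⟩)⟩
    have i1 := (B.isFree_iff _).1 hc.free.2.1
    have i2 := (B.isUniv_iff _).1 hc.free.2.2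
    have hd : (E.map (mo d) ≫ inv (E.obj (o X) ◁ B.tp (po v) ≫ B.tb (bo s))) ≫
        E.obj (o X) ◁ B.tp (po v) ≫ B.tb (bo s) = E.map (mo d) := by
      rw [Category.assoc, IsIso.inv_hom_id, Category.comp_id]
    refine ⟨Z, Z', R, B.tp (po v), B.tb (bo s), j, d, _, _, δ, i1, i2, B.isCone hc hd, hd, ?_, ?_⟩
    · erw [su_tp, sb_tb]
      simp only [id_tensorHom] at h5
      exact h5
    · simp only [id_tensorHom] at h6
      exact h6

end

/-- The dictionary, with the converse implications. -/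
noncomputable def br2 (R : Rfl CF OSp) (d : QD R.q) : Br2 (idE R) where
  toBr := br R d
  assoc' a b c e h := d.cb_assoc' a b c e (by
    have := tq_assoc' (RM.adj R) _ _ _ _ h
    change tq (RM.adj R) (tbR R d a) ▷ _ ≫ tq (RM.adj R) (tbR R d b) =
      _ ≫ _ ◁ tq (RM.adj R) (tbR R d c) ≫ tq (RM.adj R) (tbR R d e) at this
    rw [tq_tbR, tq_tbR, tq_tbR, tq_tbR] at this
    exact this)
  comm' b c h := d.cb_comm' b c (by
    have := congrArg (tq (RM.adj R)) h
    change tq (RM.adj R) (tbR R d b) = tq (RM.adj R) (_ ≫ tbR R d c) at this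
    rw [tq_comm, tq_tbR, tq_tbR] at this
    exact this)

/-- **`IsSH T S` implies the axioms of a suspension spectrum functor.** -/
theorem susp_of_isSH {T : St.SHCat} {S : St.SuspData T} (I : P251CX.IsSH T S) :
    ∃ S₁ : St.Susp T, S₁.toSuspData = S :=
  (mid (br2 P251CV.R qd) I).genD.exists_susp

end Vale.Agent.P251CZ
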